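import Vale.Agent.P092.H866.T.Lift
import Vale.Agent.P092.H866.ErgL
import Vale.Agent.P092.H333.ErgQ

/-!
P092 (helper866), connected places for all amplifications: **(E)** of project Q-T, `ErgC` at a
connected place.
-/

set_option linter.all false

open scoped InnerProductSpace Topology ENNReal
open Filter ContinuousLinearMap

namespace Vale.Agent.P092.H866.T

open H160 H103 H962 H333
open PA (FacS)
open Vale.Agent.P092.H866 (fd_of_facS inf_conj_icc)

/-- **Ergodicity at a connected place**, for all amplifications (arbitrary ICC groups, torsion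
allowed). -/
theorem ergC_conn {I J K Λ Γ G : Type} [Group Λ] [Group Γ] [Group G] [TopologicalSpace G]
    [Fintype I] [Fintype J] [Fintype K]
    {α : Γ → (Ell2 (I × Λ) →L[ℂ] Ell2 (I × Λ))} {β : Γ → (Ell2 (J × Λ) →L[ℂ] Ell2 (J × Λ))}
    {γ : Γ → (Ell2 (K × Λ) →L[ℂ] Ell2 (K × Λ))} {p : Γ →* G} [PreconnectedSpace G] (hG : FacS G)
    (hΓ : SR.St.ICC Γ) (hΛ : SR.St.ICC Λ) (hα : AF α) (hβ : AF β) (hγ : AF γ)
    (hp : DenseRange p) :
    H333.Amp.ErgC p (V3 hα hβ hγ) (A3R hα hβ hγ) (B3R hα hβ hγ) := by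
  haveI := hG.top
  haveI := hG.t2
  have hU : ErgC α p := ergC hα hΛ
    (fun h hh => by
      have h1 := hΓ h hh
      refine h1.mono ?_
      rintro _ ⟨g, rfl⟩
      exact ⟨g, trivial, rfl⟩) hp (fd_of_facS hG hp)
    (fun g hg N hN => inf_conj_icc hp (hΓ g hg) hN)
  intro x hA hB hct
  exact erg_HH_ct hΛ hα hβ hγ hU (P := PT α β γ) rfl (V3_val hα hβ hγ) (A3R_val hα hβ hγ)
    (B3R_val hα hβ hγ) hA hB hct

end Vale.Agent.P092.H866.T
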