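import Vale.Agent.P092.H866.T.Mix
import Vale.Agent.P092.H866.Fd
import Vale.Agent.P092.H866.Cpt

/-!
P092 (helper866), connected places for all amplifications: the Hilbert space of continuous vectors.
-/

set_option linter.all false

open scoped InnerProductSpace Topology ENNReal
open Filter ContinuousLinearMap

namespace Vale.Agent.P092.H866.T

open H160
open Vale.Agent.P092.H866 (CmC LK Lm Lm_apply evi hasSum_sq mem2_iff mem2_map norm_eq_of norm_le_of
  adjoint_mul sg sg_one sg_mul sg_mul' sg_add sg_sub sg_smul U_inv_mul U_mul_inv inner_Lm zl mem_zl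
  norm_Lm_iso tendsto_of_dense)

variable {Γ Λ G : Type} [Group Γ] [Group Λ] [Group G] [TopologicalSpace G]
  {K : Type} [NormedAddCommGroup K]
  [InnerProductSpace ℂ K] [CompleteSpace K] {R : Λ →* (K →L[ℂ] K)} {U : Γ →* (K →L[ℂ] K)}
  {J : Type} {C : Subgroup Λ} {y : J → K} {p : Γ →* G}

section

variable (h : Hyp U R C y)

include h

theorem Hyp.ct_add {X Y : K →L[ℂ] K} (hX : Ct R U C y p X) (hY : Ct R U C y p Y) :
    Ct R U C y p (X + Y) := by
  refine ⟨hX.toBd.add hY.toBd, ?_⟩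
  have h1 := hX.cont.add hY.cont
  rw [add_zero] at h1
  refine squeeze_zero (fun _ => norm_nonneg _) (fun w => ?_) h1
  have e : sg U w (X + Y) - (X + Y) = (sg U w X - X) + (sg U w Y - Y) := by
    rw [sg_add]; abel
  rw [e, ((h.bd_sg hX.toBd w).sub hX.toBd).vec_add ((h.bd_sg hY.toBd w).sub hY.toBd)]
  exact norm_add_le _ _

theorem Hyp.ct_smul {X : K →L[ℂ] K} (c : ℂ) (hX : Ct R U C y p X) :
    Ct R U C y p (c • X) := by
  refine ⟨hX.toBd.smul c, ?_⟩
  have h1 := hX.cont.const_mul ‖c‖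
  rw [mul_zero] at h1
  refine h1.congr fun w => ?_
  rw [sg_smul, ← smul_sub, ((h.bd_sg hX.toBd w).sub hX.toBd).vec_smul, norm_smul]

theorem Hyp.ct_adj {X : K →L[ℂ] K} (hX : Ct R U C y p X) : Ct R U C y p (adjoint X) := by
  refine ⟨h.adj hX.toBd, ?_⟩
  refine hX.cont.congr fun w => ?_
  rw [← sg_adjoint h.hU, ← map_sub]
  exact (h.norm_adj ((h.bd_sg hX.toBd w).sub hX.toBd)).symm

theorem Hyp.ct_mul {X Y : K →L[ℂ] K} (hX : Ct R U C y p X) (hY : Ct R U C y p Y) :
    Ct R U C y p (X * Y) := by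
  refine ⟨hY.toBd.mul_left hX.comm, ?_⟩
  have h1 := (hX.cont.const_mul ‖Y‖).add (hY.cont.const_mul ‖X‖)
  rw [mul_zero, mul_zero, add_zero] at h1
  refine squeeze_zero (fun _ => norm_nonneg _) (fun w => ?_) h1
  have e : sg U w (X * Y) - X * Y = (sg U w X - X) * sg U w Y + X * (sg U w Y - Y) := by
    rw [sg_mul']; noncomm_ring
  have b1 : Bd R C y (sg U w X - X) := (h.bd_sg hX.toBd w).sub hX.toBd
  have b2 : Bd R C y (sg U w Y - Y) := (h.bd_sg hY.toBd w).sub hY.toBd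
  have b3 : CmC R C (sg U w Y) := (h.bd_sg hY.toBd w).comm
  rw [e, (h.mul_right b3 b1).vec_add (b2.mul_left hX.comm)]
  refine (norm_add_le _ _).trans (add_le_add ?_ (b2.norm_mul_left hX.comm))
  refine (h.norm_mul_right b3 b1).trans ?_
  exact mul_le_mul_of_nonneg_right (norm_sg h.hU w Y) (norm_nonneg _)

theorem Hyp.ct_sg [IsTopologicalGroup G] {X : K →L[ℂ] K} (hX : Ct R U C y p X) (v : Γ) :
    Ct R U C y p (sg U v X) := by
  refine ⟨h.bd_sg hX.toBd v, ?_⟩
  have hconj : Tendsto (fun w => v⁻¹ * w * v) (comap p (𝓝 1)) (comap p (𝓝 1)) := by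
    rw [tendsto_comap_iff]
    have h1 : Tendsto (fun g : G => (p v)⁻¹ * g * p v) (𝓝 1) (𝓝 1) := by
      have h2 : Continuous fun g : G => (p v)⁻¹ * g * p v := by fun_prop
      have h3 := h2.tendsto 1
      simpa using h3
    refine (h1.comp tendsto_comap).congr fun w => ?_
    simp only [Function.comp_apply, map_mul, map_inv]
  refine (hX.cont.comp hconj).congr fun w => ?_
  have b1 : Bd R C y (sg U (v⁻¹ * w * v) X - X) := (h.bd_sg hX.toBd _).sub hX.toBd
  have h1 := h.norm_vec_sg b1 v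
  change ‖vec y (sg U (v⁻¹ * w * v) X - X)‖ = _
  rw [← h1, sg_sub, ← sg_mul, ← sg_mul]
  congr 3
  group

theorem Hyp.ct_zero : Ct R U C y p (0 : K →L[ℂ] K) := by
  have hm : Memℓp (fun j => (0 : K →L[ℂ] K) (y j)) 2 := by
    simpa using (zero_mem_ℓp' : Memℓp (fun i : J => (0 : K)) 2)
  have hb : Bd R C y (0 : K →L[ℂ] K) := ⟨fun c _ => by simp, hm⟩
  refine ⟨hb, ?_⟩
  have e : ∀ w, sg U w (0 : K →L[ℂ] K) - 0 = 0 := fun w => by simp [sg]
  have e2 : ‖vec y (0 : K →L[ℂ] K)‖ = 0 := by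
    have := norm_vec_sq hm
    simp at this
    simpa using this
  simp only [e, e2]
  exact tendsto_const_nhds

end

/-- The algebra of continuous operators of finite `2`-norm. -/
noncomputable def QQ (h : Hyp U R C y) (p : Γ →* G) : Submodule ℂ (K →L[ℂ] K) where
  carrier := {X | Ct R U C y p X}
  add_mem' := fun hX hY => h.ct_add hX hY
  zero_mem' := h.ct_zero
  smul_mem' := fun c _ hX => h.ct_smul c hX

/-- The vectors of these operators. -/
noncomputable def e₀ (h : Hyp U R C y) (p : Γ →* G) : QQ h p →ₗ[ℂ] LK J K where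
  toFun X := vec y X
  map_add' X Y := X.2.toBd.vec_add Y.2.toBd
  map_smul' c X := X.2.toBd.vec_smul c

/-- The Hilbert space of continuous vectors. -/
noncomputable abbrev Hc (h : Hyp U R C y) (p : Γ →* G) : Submodule ℂ (LK J K) :=
  (LinearMap.range (e₀ h p)).topologicalClosure

noncomputable def ee (h : Hyp U R C y) (p : Γ →* G) : QQ h p →ₗ[ℂ] Hc h p :=
  (e₀ h p).codRestrict _ fun X => (LinearMap.range (e₀ h p)).le_topologicalClosure ⟨X, rfl⟩

theorem ee_coe (h : Hyp U R C y) (X : QQ h p) : ((ee h p X : Hc h p) : LK J K) = vec y X :=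
  rfl

theorem dense_ee (h : Hyp U R C y) : DenseRange (ee h p) := by
  rw [Metric.denseRange_iff]
  intro z r hr
  have hy : (z : LK J K) ∈ closure ((LinearMap.range (e₀ h p) : Submodule ℂ (LK J K)) : Set _) :=
    z.2
  obtain ⟨z, ⟨X, rfl⟩, hz⟩ := Metric.mem_closure_iff.mp hy r hr
  exact ⟨X, hz⟩

theorem ext_ee (h : Hyp U R C y) {F : Type} [NormedAddCommGroup F] [NormedSpace ℂ F]
    {A B : Hc h p →L[ℂ] F} (hAB : ∀ X, A (ee h p X) = B (ee h p X)) : A = B := by
  have h1 := (dense_ee (p := p) h).equalizer A.continuous B.continuous (funext hAB)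
  ext1 v
  exact congrFun h1 v

section

variable [IsTopologicalGroup G]

/-- conjugation as a linear map -/
noncomputable def sgl (h : Hyp U R C y) (p : Γ →* G) (w : Γ) : QQ h p →ₗ[ℂ] QQ h p where
  toFun X := ⟨sg U w X, h.ct_sg X.2 w⟩
  map_add' X Y := Subtype.ext (sg_add w _ _)
  map_smul' c X := Subtype.ext (sg_smul w c _)

theorem norm_ee_sgl (h : Hyp U R C y) (w : Γ) (X : QQ h p) :
    ‖ee h p (sgl h p w X)‖ = ‖ee h p X‖ :=
  h.norm_vec_sg X.2.toBd w

/-- the unitary of `w` on continuous vectors -/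
noncomputable def W₀ (h : Hyp U R C y) (p : Γ →* G) (w : Γ) : Hc h p →L[ℂ] Hc h p :=
  ((ee h p) ∘ₗ sgl h p w).extendOfNorm (ee h p)

theorem W₀_ee (h : Hyp U R C y) (w : Γ) (X : QQ h p) :
    W₀ h p w (ee h p X) = ee h p (sgl h p w X) :=
  LinearMap.extendOfNorm_eq (dense_ee h) ⟨1, fun Y => by
    rw [one_mul]; exact (norm_ee_sgl h w Y).le⟩ X

noncomputable def WW (h : Hyp U R C y) (p : Γ →* G) : Γ →* (Hc h p →L[ℂ] Hc h p) where
  toFun w := W₀ h p w
  map_one' := by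
    refine ext_ee h fun X => ?_
    rw [W₀_ee]
    change ee h p (sgl h p 1 X) = ee h p X
    rw [show sgl h p 1 X = X from Subtype.ext (sg_one _)]
  map_mul' w v := by
    refine ext_ee h fun X => ?_
    change W₀ h p (w * v) (ee h p X) = W₀ h p w (W₀ h p v (ee h p X))
    rw [W₀_ee, W₀_ee, W₀_ee]
    rw [show sgl h p (w * v) X = sgl h p w (sgl h p v X) from Subtype.ext (sg_mul w v _)]

theorem WW_ee (h : Hyp U R C y) (w : Γ) (X : QQ h p) :
    WW h p w (ee h p X) = ee h p (sgl h p w X) := W₀_ee h w X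

theorem inner_ee_sgl (h : Hyp U R C y) (w : Γ) (X Y : QQ h p) :
    ⟪ee h p (sgl h p w X), ee h p (sgl h p w Y)⟫_ℂ = ⟪ee h p X, ee h p Y⟫_ℂ :=
  h.inner_sg X.2.toBd Y.2.toBd w

theorem WW_adj (h : Hyp U R C y) (w : Γ) : adjoint (WW h p w) = WW h p w⁻¹ := by
  refine ext_ee h fun X => ?_
  -- test against `ee Y`
  have key : ∀ η : Hc h p, ⟪adjoint (WW h p w) (ee h p X), η⟫_ℂ = ⟪WW h p w⁻¹ (ee h p X), η⟫_ℂ := by
    intro η
    have h1 : (fun η : Hc h p => ⟪adjoint (WW h p w) (ee h p X), η⟫_ℂ) =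
        fun η : Hc h p => ⟪WW h p w⁻¹ (ee h p X), η⟫_ℂ := by
      refine (dense_ee (p := p) h).equalizer
        (innerSL ℂ (adjoint (WW h p w) (ee h p X))).continuous
        (innerSL ℂ (WW h p w⁻¹ (ee h p X))).continuous (funext fun Y => ?_)
      change ⟪adjoint (WW h p w) (ee h p X), ee h p Y⟫_ℂ = ⟪WW h p w⁻¹ (ee h p X), ee h p Y⟫_ℂ
      rw [adjoint_inner_left, WW_ee, WW_ee, ← inner_ee_sgl h w (sgl h p w⁻¹ X) Y]
      congr 2
      apply Subtype.ext
      change (X : K →L[ℂ] K) = sg U w (sg U w⁻¹ X)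
      rw [← sg_mul, mul_inv_cancel, sg_one]
    exact congrFun h1 η
  exact ext_inner_right ℂ key

theorem WW_norm (h : Hyp U R C y) (w : Γ) (ξ : Hc h p) : ‖WW h p w ξ‖ = ‖ξ‖ := by
  have h1 : (fun ξ : Hc h p => ‖WW h p w ξ‖) = fun ξ => ‖ξ‖ := by
    refine (dense_ee (p := p) h).equalizer (by fun_prop) (by fun_prop) (funext fun Y => ?_)
    change ‖WW h p w (ee h p Y)‖ = ‖ee h p Y‖
    rw [WW_ee, norm_ee_sgl]
  exact congrFun h1 ξ

theorem WW_cont (h : Hyp U R C y) (ξ : Hc h p) :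
    Tendsto (fun w => WW h p w ξ) (comap p (𝓝 1)) (𝓝 ξ) := by
  rw [Metric.tendsto_nhds]
  intro ε hε
  obtain ⟨X, hX⟩ := Metric.denseRange_iff.mp (dense_ee (p := p) h) ξ (ε / 3) (by positivity)
  have h1 : Tendsto (fun w => ‖WW h p w (ee h p X) - ee h p X‖) (comap p (𝓝 1)) (𝓝 0) := by
    refine X.2.cont.congr fun w => ?_
    rw [WW_ee]
    rw [((h.bd_sg X.2.toBd w)).vec_sub X.2.toBd]
    rfl
  filter_upwards [h1.eventually (gt_mem_nhds (show (0 : ℝ) < ε / 3 by positivity))] with w hw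
  rw [dist_eq_norm] at hX ⊢
  have e : WW h p w ξ - ξ = WW h p w (ξ - ee h p X) + (WW h p w (ee h p X) - ee h p X) -
      (ξ - ee h p X) := by rw [map_sub]; abel
  rw [e]
  have n1 := norm_sub_le (WW h p w (ξ - ee h p X) + (WW h p w (ee h p X) - ee h p X))
    (ξ - ee h p X)
  have n2 := norm_add_le (WW h p w (ξ - ee h p X)) (WW h p w (ee h p X) - ee h p X)
  rw [WW_norm] at n2
  linarith

end

end Vale.Agent.P092.H866.T
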