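import Vale.Agent.P092.H866.T.Vec
import Vale.Agent.P092.H866.Mix

/-!
P092 (helper866), connected places for all amplifications: finite Parseval frames give the trace
property, totality and vanishing coefficients.
-/

set_option linter.all false

open scoped InnerProductSpace Topology ENNReal
open Filter ContinuousLinearMap

namespace Vale.Agent.P092.H866.T

open H160
open Vale.Agent.P092.H866 (CmC LK tendsto_of_dense zl mem_zl adjoint_mul)

variable {A κ K : Type} [Group A] [NormedAddCommGroup K] [InnerProductSpace ℂ K] [CompleteSpace K]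

/-- a unitary representation with a Parseval frame -/
structure Fr (π : A →* (K →L[ℂ] K)) (ζ : κ → K) : Prop where
  adj : ∀ a, adjoint (π a) = π a⁻¹
  par : ∀ v, HasSum (fun z : κ × A => ‖⟪π z.2 (ζ z.1), v⟫_ℂ‖ ^ 2) (‖v‖ ^ 2)

variable {π : A →* (K →L[ℂ] K)} {ζ : κ → K}

theorem Fr.total (h : Fr π ζ) {v : K} (hv : ∀ k a, ⟪π a (ζ k), v⟫_ℂ = 0) : v = 0 := by
  have h1 := h.par v
  simp only [hv, norm_zero, zero_pow two_ne_zero] at h1
  have h2 := h1.unique hasSum_zero
  exact norm_eq_zero.mp (pow_eq_zero_iff two_ne_zero |>.mp h2)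

theorem Fr.zero_op (h : Fr π ζ) {F : Type} [NormedAddCommGroup F] [InnerProductSpace ℂ F]
    [CompleteSpace F] {X : K →L[ℂ] F} (hX : ∀ k a, X (π a (ζ k)) = 0) : X = 0 := by
  have h2 : adjoint X = 0 := by
    ext1 v
    refine h.total fun k a => ?_
    rw [adjoint_inner_right, hX, inner_zero_left]
  rw [← adjoint_adjoint X, h2, map_zero]

theorem Fr.dense (h : Fr π ζ) :
    Dense ((Submodule.span ℂ (Set.range fun z : κ × A => π z.2 (ζ z.1)) : Submodule ℂ K) :
      Set K) := by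
  rw [Submodule.dense_iff_topologicalClosure_eq_top, Submodule.topologicalClosure_eq_top_iff,
    Submodule.eq_bot_iff]
  intro v hv
  refine h.total fun k a => ?_
  exact (Submodule.mem_orthogonal _ _).mp hv _ (Submodule.subset_span ⟨(k, a), rfl⟩)

theorem Fr.coef_k (h : Fr π ζ) (b : K) (k : κ) :
    Tendsto (fun x : A => ‖⟪π x (ζ k), b⟫_ℂ‖ ^ 2) cofinite (𝓝 0) := by
  have h3 := (h.par b).summable.tendsto_cofinite_zero
  have hinj : Function.Injective fun x : A => (k, x) := fun x y hxy => (Prod.mk.inj hxy).2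
  have h4 := h3.comp hinj.tendsto_cofinite
  exact h4.congr fun x => rfl

/-- coefficients vanish at infinity -/
theorem Fr.c0 (h : Fr π ζ) (a b : K) : Tendsto (fun g => ⟪a, π g b⟫_ℂ) cofinite (𝓝 0) := by
  refine tendsto_of_dense (M := ‖b‖) (fun g => (norm_map h.adj g b).le)
    (Submodule.span ℂ (Set.range fun z : κ × A => π z.2 (ζ z.1))) ?_
    (by rw [h.dense.closure_eq]; trivial)
  intro ξ hξ
  induction hξ using Submodule.span_induction with
  | mem y hy =>
    obtain ⟨⟨k, z⟩, rfl⟩ := hy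
    have h1 : ∀ g, ⟪π z (ζ k), π g b⟫_ℂ = ⟪π (g⁻¹ * z) (ζ k), b⟫_ℂ := by
      intro g
      rw [inner_right h.adj, map_mul, mul_ap]
    simp only [h1]
    have h2 := h.coef_k b k
    have h3 : Tendsto (fun g => ‖⟪π (g⁻¹ * z) (ζ k), b⟫_ℂ‖ ^ 2) cofinite (𝓝 0) :=
      h2.comp ((mul_left_injective z).comp inv_injective).tendsto_cofinite
    rw [tendsto_zero_iff_norm_tendsto_zero]
    have h4 := (Real.continuous_sqrt.tendsto 0).comp h3
    rw [Real.sqrt_zero] at h4
    refine h4.congr fun g => ?_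
    simp only [Function.comp_apply]
    exact Real.sqrt_sq (norm_nonneg _)
  | zero =>
    simp only [inner_zero_left]
    exact tendsto_const_nhds
  | add u v _ _ hu hv =>
    simp only [inner_add_left]
    simpa using hu.add hv
  | smul c u _ hu =>
    simp only [inner_smul_left]
    simpa using hu.const_mul _

theorem Fr.parseval (h : Fr π ζ) (v : K) : ENNReal.ofReal (‖v‖ ^ 2) =
    ∑' z : κ × A, ENNReal.ofReal (‖⟪π z.2 (ζ z.1), v⟫_ℂ‖ ^ 2) := by
  rw [← (h.par v).tsum_eq, ENNReal.ofReal_tsum_of_nonneg (fun y => by positivity)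
    (h.par v).summable]

section tr

variable {C : Subgroup A} {ι : Type} {x : ι → A}

/-- the reindexing -/
theorem bij_idx (hx : Function.Bijective fun z : ι × C => (z.2 : A) * x z.1) :
    Function.Bijective fun z : (ι × κ) × C => ((z.1.2, (z.2 : A) * x z.1.1) : κ × A) := by
  constructor
  · rintro ⟨⟨i, k⟩, c⟩ ⟨⟨i', k'⟩, c'⟩ h
    have h1 : k = k' := congrArg Prod.fst h
    have h2 : (c : A) * x i = c' * x i' := congrArg Prod.snd h
    have h3 := hx.1 (a₁ := (i, c)) (a₂ := (i', c')) h2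
    rw [Prod.mk.injEq] at h3
    rw [h1, h3.1, h3.2]
  · rintro ⟨k, a⟩
    obtain ⟨⟨i, c⟩, hic⟩ := hx.2 a
    exact ⟨((i, k), c), Prod.ext rfl hic⟩

/-- the family of vectors of a frame and of a transversal -/
def yy (π : A →* (K →L[ℂ] K)) (ζ : κ → K) (x : ι → A) (z : ι × κ) : K := π (x z.1) (ζ z.2)

theorem coef_adj (h : ∀ a, adjoint (π a) = π a⁻¹) {X : K →L[ℂ] K} (hX : CmC π C X) {c : A}
    (hc : c ∈ C) (a b : A) (u v : K) :
    ⟪π (c * a) u, X (π b v)⟫_ℂ = (starRingEnd ℂ) ⟪π (c⁻¹ * b) v, adjoint X (π a u)⟫_ℂ := by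
  rw [inner_conj_symm, adjoint_inner_left, map_mul, map_mul, mul_ap, mul_ap, inner_left h,
    hX.apply (C.inv_mem hc)]

/-- **Trace property** -/
theorem Fr.tr (h : Fr π ζ) (hx : Function.Bijective fun z : ι × C => (z.2 : A) * x z.1)
    {X : K →L[ℂ] K} (hX : CmC π C X) : N2 (yy π ζ x) (adjoint X) = N2 (yy π ζ x) X := by
  have key : ∀ Y : K →L[ℂ] K, N2 (yy π ζ x) Y = ∑' z : ι × κ, ∑' w : ι × κ, ∑' c : C,
      ENNReal.ofReal (‖⟪π ((c : A) * x w.1) (ζ w.2), Y (π (x z.1) (ζ z.2))⟫_ℂ‖ ^ 2) := by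
    intro Y
    refine tsum_congr fun z => ?_
    change ENNReal.ofReal (‖Y (π (x z.1) (ζ z.2))‖ ^ 2) = _
    rw [h.parseval]
    rw [← (Equiv.ofBijective _ (bij_idx (κ := κ) hx)).tsum_eq]
    rw [ENNReal.tsum_prod']
    rfl
  rw [key X, key (adjoint X), ENNReal.tsum_comm]
  refine tsum_congr fun w => tsum_congr fun z => ?_
  rw [← (Equiv.inv C).tsum_eq]
  refine tsum_congr fun c => ?_
  have h1 := coef_adj h.adj hX c.2 (x z.1) (x w.1) (ζ z.2) (ζ w.2)
  rw [h1, RCLike.norm_conj]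
  rfl

theorem Fr.tot (h : Fr π ζ) (hx : Function.Bijective fun z : ι × C => (z.2 : A) * x z.1)
    {X : K →L[ℂ] K} (hX : CmC π C X) (h0 : ∀ z, X (yy π ζ x z) = 0) : X = 0 := by
  refine h.zero_op fun k a => ?_
  obtain ⟨⟨i, c⟩, rfl⟩ := hx.2 a
  change X (π ((c : A) * x i) (ζ k)) = 0
  rw [map_mul, mul_ap, hX.apply c.2]
  have h1 : X (π (x i) (ζ k)) = 0 := h0 (i, k)
  rw [h1, map_zero]

/-- the trace of the commutant -/
theorem Fr.tr_comm [Fintype κ] (h : Fr π ζ) {X : K →L[ℂ] K} (hX : ∀ a, X * π a = π a * X) :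
    ∑ k, ‖adjoint X (ζ k)‖ ^ 2 = ∑ k, ‖X (ζ k)‖ ^ 2 := by
  have hx : Function.Bijective fun z : Unit × (⊤ : Subgroup A) =>
      (z.2 : A) * (fun _ : Unit => (1 : A)) z.1 := by
    constructor
    · rintro ⟨_, c⟩ ⟨_, d⟩ h
      have h1 : (c : A) * 1 = d * 1 := h
      rw [mul_one, mul_one] at h1
      rw [Subtype.ext h1]
    · intro y
      exact ⟨⟨(), ⟨y, trivial⟩⟩, mul_one y⟩
  have h1 := h.tr (x := fun _ : Unit => (1 : A)) hx (X := X) (fun c _ => hX c)
  have h2 : ∀ Y : K →L[ℂ] K, N2 (yy π ζ fun _ : Unit => (1 : A)) Y =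
      ENNReal.ofReal (∑ k, ‖Y (ζ k)‖ ^ 2) := by
    intro Y
    rw [N2, tsum_fintype, Fintype.sum_prod_type, Fintype.sum_unique,
      ENNReal.ofReal_sum_of_nonneg fun _ _ => by positivity]
    refine Finset.sum_congr rfl fun k _ => ?_
    rw [yy, map_one]
    rfl
  rw [h2, h2] at h1
  exact (ENNReal.ofReal_eq_ofReal_iff (Finset.sum_nonneg fun _ _ => by positivity)
    (Finset.sum_nonneg fun _ _ => by positivity)).mp h1

end tr

/-- The standing hypotheses from frames. -/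
theorem hyp_of_frames {Γ Λ κ L : Type} [Group Γ] [Group Λ] {U : Γ →* (K →L[ℂ] K)}
    {R : Λ →* (K →L[ℂ] K)} {ζ : L → K} {ω : κ → K} (hU : Fr U ζ) (hR : Fr R ω)
    (hc : ∀ g s, U g * R s = R s * U g) {C : Subgroup Λ} {ι : Type} {x : ι → Λ}
    (hx : Function.Bijective fun z : ι × C => (z.2 : Λ) * x z.1) :
    Hyp U R C (yy R ω x) where
  hU := hU.adj
  hR := hR.adj
  hc := hc
  tr X hX := hR.tr hx hX
  tot X hX h0 := hR.tot hx hX h0
  c0 := hU.c0

end Vale.Agent.P092.H866.T
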