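import Vale.Agent.P092.H866.T.Slice
import Vale.Agent.P092.H333.ErgJ

/-!
P092 (helper866), connected places for all amplifications: the stripped comultiplication of an
amplified model is ergodic.
-/

set_option linter.all false

open scoped InnerProductSpace Topology ENNReal
open Filter ContinuousLinearMap

namespace Vale.Agent.P092.H866.T

open H160 H103 H962 H333
open H776.TC (JDM)
open Vale.Agent.P092.H866 (FD hasSum_sq)

/-! ### continuity for a pair of families -/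

section cta

variable {ι W W' : Type} [NormedAddCommGroup W] [InnerProductSpace ℂ W] [CompleteSpace W]
  [NormedAddCommGroup W'] [InnerProductSpace ℂ W'] [CompleteSpace W']
  {l : Filter ι} {a b : ι → (W →L[ℂ] W)}

/-- `a X b → X` strongly along `l` -/
def CtA (l : Filter ι) (a b : ι → (W →L[ℂ] W)) (X : W →L[ℂ] W) : Prop :=
  ∀ ξ, Tendsto (fun i => a i (X (b i ξ))) l (𝓝 (X ξ))

theorem CtA.sandwich {X : W →L[ℂ] W} (h : CtA l a b X) {m m' : W →L[ℂ] W}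
    (hm : ∀ i, m * a i = a i * m) (hm' : ∀ i, m' * b i = b i * m') : CtA l a b (m * X * m') := by
  intro ξ
  have h1 : ∀ i, a i ((m * X * m') (b i ξ)) = m (a i (X (b i (m' ξ)))) := by
    intro i
    have e1 : m' (b i ξ) = b i (m' ξ) := congrArg (fun L : W →L[ℂ] W => L ξ) (hm' i)
    have e2 : ∀ u, a i (m u) = m (a i u) := fun u =>
      (congrArg (fun L : W →L[ℂ] W => L u) (hm i)).symm
    change a i (m (X (m' (b i ξ)))) = _
    rw [e1, e2]
  have h2 := (m.continuous.tendsto _).comp (h (m' ξ))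
  exact h2.congr fun i => (h1 i).symm

theorem CtA.sum {κ : Type} (F : Finset κ) {X : κ → (W →L[ℂ] W)} (h : ∀ k ∈ F, CtA l a b (X k)) :
    CtA l a b (∑ k ∈ F, X k) := by
  intro ξ
  have h1 : ∀ i, a i ((∑ k ∈ F, X k) (b i ξ)) = ∑ k ∈ F, a i (X k (b i ξ)) := by
    intro i
    rw [sum_apply, map_sum]
  have h2 : (∑ k ∈ F, X k) ξ = ∑ k ∈ F, X k ξ := by rw [sum_apply]
  rw [h2]
  refine (tendsto_finsetSum F fun k hk => h k hk ξ).congr fun i => (h1 i).symm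

/-- transport along an intertwiner -/
theorem CtA.strip {X : W →L[ℂ] W} (h : CtA l a b X) {F : W' →L[ℂ] W} {F' : W →L[ℂ] W'}
    {a' b' : ι → (W' →L[ℂ] W')} (ha : ∀ i, F' ∘L a i = a' i ∘L F')
    (hb : ∀ i, b i ∘L F = F ∘L b' i) : CtA l a' b' (F' ∘L X ∘L F) := by
  intro ξ
  have h1 : ∀ i, a' i ((F' ∘L X ∘L F) (b' i ξ)) = F' (a i (X (b i (F ξ)))) := by
    intro i
    have e1 : F (b' i ξ) = b i (F ξ) := (congrArg (fun L : W' →L[ℂ] W => L ξ) (hb i)).symm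
    have e2 : ∀ u, a' i (F' u) = F' (a i u) := fun u =>
      (congrArg (fun L : W →L[ℂ] W' => L u) (ha i)).symm
    change a' i (F' (X (F (b' i ξ)))) = _
    rw [e1, e2]
  have h2 := (F'.continuous.tendsto _).comp (h (F ξ))
  exact h2.congr fun i => (h1 i).symm

theorem CtA.eps {Γ G : Type} [Group Γ] [Group G] [TopologicalSpace G] {p : Γ →* G}
    {a b : Γ → (W →L[ℂ] W)} {X : W →L[ℂ] W} (h : CtA (comap p (𝓝 1)) a b X) (ξ : W) {ε : ℝ}
    (hε : 0 < ε) : ∃ N ∈ 𝓝 (1 : G), ∀ w, p w ∈ N → ‖(a w * X * b w - X) ξ‖ ≤ ε := by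
  have h1 := Metric.tendsto_nhds.mp (h ξ) ε hε
  obtain ⟨N, hN, hNS⟩ := Filter.mem_comap.mp h1
  refine ⟨N, hN, fun w hw => ?_⟩
  have h2 : dist (a w (X (b w ξ))) (X ξ) < ε := hNS hw
  rw [dist_eq_norm] at h2
  exact h2.le

theorem ctA_of_eps {Γ G : Type} [Group Γ] [Group G] [TopologicalSpace G] {p : Γ →* G}
    {a b : Γ → (W →L[ℂ] W)} {X : W →L[ℂ] W} (h : ∀ ξ, ∀ ε > 0, ∃ N ∈ 𝓝 (1 : G), ∀ w, p w ∈ N →
      ‖(a w * X * b w - X) ξ‖ ≤ ε) : CtA (comap p (𝓝 1)) a b X := by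
  intro ξ
  rw [Metric.tendsto_nhds]
  intro ε hε
  obtain ⟨N, hN, h1⟩ := h ξ (ε / 2) (half_pos hε)
  refine Filter.mem_comap.mpr ⟨N, hN, fun w hw => ?_⟩
  rw [Set.mem_setOf_eq, dist_eq_norm]
  exact lt_of_le_of_lt (h1 w hw) (half_lt_self hε)

end cta

section inst

variable {I Λ Γ G : Type} [Group Λ] [Group Γ] [Group G] [TopologicalSpace G] [Fintype I]
  {α : Γ → (Ell2 (I × Λ) →L[ℂ] Ell2 (I × Λ))} {p : Γ →* G}

/-- the representation of `Γ` on the corner -/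
noncomputable def aU (hα : AF α) : Γ →* (Ep (α 1) →L[ℂ] Ep (α 1)) where
  toFun := aE hα
  map_one' := aE_one hα
  map_mul' := aE_mul hα

theorem aU_apply (hα : AF α) (g : Γ) : aU hα g = aE hα g := rfl

theorem jdmU (hα : AF α) (hΓ : RIcc (Set.univ : Set Γ)) :
    JDM (rE hα) (RU I) (Js α) (fun g => aU hα g) (fun g => VT Unit Unit (α g)) := by
  have hj := jdm hα (Θ := (⊤ : Subgroup Γ)) hΓ
  have hr : (Set.range fun k : (⊤ : Subgroup Γ) => aE hα (k : Γ)) =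
      Set.range fun g => aU hα g := by
    ext A
    constructor
    · rintro ⟨k, rfl⟩
      exact ⟨(k : Γ), rfl⟩
    · rintro ⟨g, rfl⟩
      exact ⟨⟨g, trivial⟩, rfl⟩
  exact
    { irr := hr ▸ hj.irr
      adjR := hj.adjR
      jj := hj.jj
      orth := hj.orth
      ja := fun s g => hj.ja s ⟨g, trivial⟩
      adj := fun g => ⟨g⁻¹, by
        change adjoint (aE hα g) = aE hα g⁻¹
        exact aE_adj hα g, by
        change adjoint (VT Unit Unit (α g)) = VT Unit Unit (α g⁻¹)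
        rw [VT_adj, hα.adj]⟩
      js := hj.js
      jr := hj.jr }

theorem frU (hα : AF α) (hΛ : ∀ s : Λ, s ≠ 1 → Set.Infinite {y : Λ | ∃ h, y = h * s * h⁻¹}) :
    ∃ (m : ℕ) (ζ : Fin m → Ep (α 1)), Fr (aU hα) ζ := by
  obtain ⟨m, ζ, h1, -, h3⟩ := H58.exists_frame hα hΛ
  refine ⟨m, fun k => prj (pA_prj hα) (ζ k), ⟨fun g => aE_adj hα g, fun v => ?_⟩⟩
  have h4 := h3 (inc (α 1) v)
  rw [p_inc, norm_inc] at h4
  refine h4.congr_fun fun z => ?_
  rw [← inner_inc, aU_apply, inc_aE, inc_prj, h1]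

theorem frR (hα : AF α) : Fr (rE hα) (fun i : I => prj (pA_prj hα) (dl (i, 1))) := by
  refine ⟨fun s => ?_, fun v => ?_⟩
  · change adjoint (cmp (pA_prj hα) ((FS.mat I Λ).R s)) = cmp (pA_prj hα) ((FS.mat I Λ).R s⁻¹)
    rw [adjoint_cmp, FS.R_adj]
  · have h1 : HasSum (fun z : I × Λ => ‖(inc (α 1) v) z‖ ^ 2) (‖v‖ ^ 2) :=
      hasSum_sq (K := ℂ) (inc (α 1) v)
    have h2 := (Equiv.prodCongr (Equiv.refl I) (Equiv.inv Λ)).hasSum_iff.mpr h1
    refine h2.congr_fun fun z => ?_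
    have h3 : ⟪rE hα z.2 (prj (pA_prj hα) (dl (z.1, 1))), v⟫_ℂ =
        (inc (α 1) v) (z.1, z.2⁻¹) := by
      have h5 : ∀ u w : Ell2 (I × Λ), ⟪α 1 u, w⟫_ℂ = ⟪u, α 1 w⟫_ℂ := by
        intro u w
        have h6 := adjoint_inner_right (α 1) u w
        rw [hα.p_adj] at h6
        exact h6.symm
      rw [← inner_inc, inc_rE, inc_prj, ← hα.comm 1 z.2, h5, p_inc, FS.R_dl, FS.mat_act, one_mul,
        inner_dl]
    rw [h3]
    rfl

/-- The stripped comultiplication is ergodic at `p`. -/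
def ErgC (α : Γ → (Ell2 (I × Λ) →L[ℂ] Ell2 (I × Λ))) (p : Γ →* G) : Prop :=
  ∀ X : Ell2 (I × ((Unit × Λ) × (Unit × Λ))) →L[ℂ] Ell2 (I × ((Unit × Λ) × (Unit × Λ))),
    VT Unit Unit (α 1) * X = X → X * VT Unit Unit (α 1) = X →
    (∀ s t : Λ, X * tens 1 (tens (tens 1 (rho s)) (tens 1 (rho t))) =
      tens 1 (tens (tens 1 (rho s)) (tens 1 (rho t))) * X) →
    CtA (comap p (𝓝 1)) (fun w => VT Unit Unit (α w)) (fun w => VT Unit Unit (α w⁻¹)) X →
    ∃ c : ℂ, X = c • VT Unit Unit (α 1)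

theorem VT_RU (hα : AF α) (w : Γ) (q : Λ × Λ) :
    VT Unit Unit (α w) * RU I q = RU I q * VT Unit Unit (α w) := by
  have hc1 : ∀ y ∈ MR Unit Λ, VT Unit Unit (α w) * tens 1 (tens y 1) =
      tens 1 (tens y 1) * VT Unit Unit (α w) := by
    intro y hy
    have := comm_VR1 (I := I) (K := Unit) (hα.comm w) (eqv_of_MR hy)
    rw [R1T, JT_JT] at this
    exact this
  have hc2 : ∀ z ∈ MR Unit Λ, VT Unit Unit (α w) * tens 1 (tens 1 z) =
      tens 1 (tens 1 z) * VT Unit Unit (α w) := by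
    intro y hy
    have := comm_VR2 (I := I) (J := Unit) (hα.comm w) (eqv_of_MR hy)
    rw [R2T, JT_JT] at this
    exact this
  have h1 : RU I q = tens 1 (tens (tens 1 (rho q.1)) 1) * tens 1 (tens 1 (tens 1 (rho q.2))) :=
    RR_eq (J := Unit) (K := Unit) (rho q.1) (rho q.2)
  rw [h1, ← mul_assoc, hc1 _ (rho_mem_MR q.1), mul_assoc, hc2 _ (rho_mem_MR q.2), mul_assoc]

/-- **The stripped comultiplication is ergodic at a connected place.** -/
theorem ergC [IsTopologicalGroup G] [PreconnectedSpace G] (hα : AF α)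
    (hΛ : ∀ s : Λ, s ≠ 1 → Set.Infinite {y : Λ | ∃ h, y = h * s * h⁻¹})
    (hΓ : RIcc (Set.univ : Set Γ)) (hp : DenseRange p) (hfd : FD p)
    (hF1 : ∀ g : Γ, g ≠ 1 → ∀ N ∈ 𝓝 (1 : G), {y | ∃ w, p w ∈ N ∧ y = w * g * w⁻¹}.Infinite) :
    ErgC α p := by
  intro X hPX hXP hR hcont
  obtain ⟨m, ζ, hU⟩ := frU hα hΛ
  have hPD : ∀ (s : Λ) (v : Ell2 (I × Λ)), VT Unit Unit (α 1) (Ds I s v) = Ds I s (α 1 v) :=
    fun s v => VT_Ds _ _ _
  have hPadj : adjoint (VT Unit Unit (α 1)) = VT Unit Unit (α 1) := by rw [VT_adj, hα.p_adj]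
  have hinc : ∀ v : Ell2 (I × Λ), α 1 v = inc (α 1) (prj (pA_prj hα) v) := fun v => rfl
  obtain ⟨c, hc⟩ := erg_jdm (jdmU hα hΓ) hU (frR hα) (VT_RU hα) hΛ hp hfd hF1 (X := X)
    (VT Unit Unit (α 1)) hPX (fun η h1 h2 => by
      apply ext_inner_dl
      rintro ⟨i, ⟨u, a⟩, ⟨u', b⟩⟩
      have h3 : (dl (i, ((u, a), (u', b))) : Ell2 (I × ((Unit × Λ) × (Unit × Λ)))) =
          Ds I (a⁻¹ * b) (dl (i, a)) := by
        rw [Ds_dl, mul_inv_cancel_left]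
      have h4 : ⟪(dl (i, ((u, a), (u', b))) : Ell2 (I × ((Unit × Λ) × (Unit × Λ)))), η⟫_ℂ = 0 := by
        rw [h3, ← h1, ← adjoint_inner_left, hPadj, hPD, hinc]
        change ⟪Js α (a⁻¹ * b) (prj (pA_prj hα) (dl (i, a))), η⟫_ℂ = 0
        rw [← adjoint_inner_right, h2, inner_zero_right]
      rw [inner_dl] at h4
      rw [h4]
      rfl)
    (fun s => by
      ext1 e
      change VT Unit Unit (α 1) (Ds I s (inc (α 1) e)) = Ds I s (inc (α 1) e)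
      rw [hPD, p_inc])
    (fun p => hR p.1 p.2) (fun k ε hε => hcont.eps _ hε)
  refine ⟨c, op_ext ?_⟩
  rintro ⟨i, ⟨u, a⟩, ⟨u', b⟩⟩
  have h3 : (dl (i, ((u, a), (u', b))) : Ell2 (I × ((Unit × Λ) × (Unit × Λ)))) =
      Ds I (a⁻¹ * b) (dl (i, a)) := by
    rw [Ds_dl, mul_inv_cancel_left]
  rw [h3]
  have h4 := congrArg (fun L : Ell2 (I × ((Unit × Λ) × (Unit × Λ))) →L[ℂ]
    Ell2 (I × ((Unit × Λ) × (Unit × Λ))) => L (Ds I (a⁻¹ * b) (dl (i, a)))) hXP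
  change X (VT Unit Unit (α 1) (Ds I (a⁻¹ * b) (dl (i, a)))) = X (Ds I (a⁻¹ * b) (dl (i, a))) at h4
  change X (Ds I (a⁻¹ * b) (dl (i, a))) = c • VT Unit Unit (α 1) (Ds I (a⁻¹ * b) (dl (i, a)))
  rw [← h4, hPD, hinc]
  exact hc _ _

end inst

end Vale.Agent.P092.H866.T
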