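import Vale.Agent.P092.H866.T.Inst
import Vale.Agent.P092.H333.ErgT3

/-!
P092 (helper866), connected places for all amplifications: from the stripped comultiplication to
the Hilbert space `HH P` of the amplified model.
-/

set_option linter.all false

open scoped InnerProductSpace Topology ENNReal
open Filter ContinuousLinearMap

namespace Vale.Agent.P092.H866.T

open H160 H103 H962 H333

section leg

variable {H W B : Type} [NormedAddCommGroup H] [InnerProductSpace ℂ H] [CompleteSpace H]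
  [NormedAddCommGroup W] [InnerProductSpace ℂ W] [CompleteSpace W]
  {E : B → (H →L[ℂ] W)} {amp : (H →L[ℂ] H) →ₗ[ℂ] (W →L[ℂ] W)}

/-- the lift along a leg, with an explicit formula -/
theorem lift_leg (h : LegD E amp) {κ : Type} [Fintype κ] {𝒩 : Set (H →L[ℂ] H)}
    (hmul : ∀ x ∈ 𝒩, ∀ y ∈ 𝒩, x * y ∈ 𝒩) (hadj : ∀ x ∈ 𝒩, adjoint x ∈ 𝒩)
    {q : H →L[ℂ] H} {v : κ → (H →L[ℂ] H)} (hv : ∀ k, v k ∈ 𝒩)
    (h1 : ∑ k, v k * q * adjoint (v k) = 1)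
    {X : W →L[ℂ] W} (hqX : amp q * X = X) (hXq : X * amp q = X)
    (hX : ∀ y ∈ 𝒩, X * amp (q * y * q) = amp (q * y * q) * X) :
    ∃ X' : W →L[ℂ] W, (∀ y ∈ 𝒩, X' * amp y = amp y * X') ∧ amp q * X' = X ∧
      X' = ∑ k, amp (v k) * X * amp (adjoint (v k)) := by
  refine ⟨∑ k, amp (v k) * X * amp (adjoint (v k)), ?_⟩
  have e1 : ∑ k, amp (v k) * amp q * amp (adjoint (v k)) = 1 := by
    rw [← h.one, ← h1, map_sum]
    exact Finset.sum_congr rfl fun k _ => by rw [h.mul, h.mul]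
  obtain ⟨h2, h3⟩ := lift_op (amp '' 𝒩) (amp q) (fun k => amp (v k))
    (fun k => amp (adjoint (v k))) e1 (by
      rintro _ ⟨m, hm, rfl⟩ k l
      exact ⟨adjoint (v l) * m * v k, hmul _ (hmul _ (hadj _ (hv l)) _ hm) _ (hv k), by
        rw [h.mul, h.mul]⟩) (fun k => ⟨_, hv k, rfl⟩) X hqX hXq (by
      rintro _ ⟨m, hm, rfl⟩
      have := hX m hm
      rw [h.mul, h.mul] at this
      exact this)
  exact ⟨fun y hy => h2 _ ⟨y, hy, rfl⟩, h3, rfl⟩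

theorem sum_comm {κ : Type} [Fintype κ] {𝒩 : Set (H →L[ℂ] H)} (hadj : ∀ x ∈ 𝒩, adjoint x ∈ 𝒩)
    {v : κ → (H →L[ℂ] H)} (hv : ∀ k, v k ∈ 𝒩) {X a : W →L[ℂ] W} (ha : X * a = a * X)
    (hc : ∀ y ∈ 𝒩, amp y * a = a * amp y) :
    (∑ k, amp (v k) * X * amp (adjoint (v k))) * a =
      a * ∑ k, amp (v k) * X * amp (adjoint (v k)) :=
  lift_comm ha (fun k => hc _ (hv k)) fun k => hc _ (hadj _ (hv k))

theorem sum_left {κ : Type} [Fintype κ] {𝒩 : Set (H →L[ℂ] H)}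
    {v : κ → (H →L[ℂ] H)} (hv : ∀ k, v k ∈ 𝒩) {X a : W →L[ℂ] W} (ha : a * X = X)
    (hc : ∀ y ∈ 𝒩, amp y * a = a * amp y) :
    a * ∑ k, amp (v k) * X * amp (adjoint (v k)) =
      ∑ k, amp (v k) * X * amp (adjoint (v k)) := by
  rw [Finset.mul_sum]
  refine Finset.sum_congr rfl fun k _ => ?_
  calc a * (amp (v k) * X * amp (adjoint (v k)))
      = (a * amp (v k)) * X * amp (adjoint (v k)) := by simp only [mul_assoc]
    _ = amp (v k) * (a * X) * amp (adjoint (v k)) := by rw [← hc _ (hv k)]; simp only [mul_assoc]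
    _ = _ := by rw [ha]

theorem sum_right {κ : Type} [Fintype κ] {𝒩 : Set (H →L[ℂ] H)} (hadj : ∀ x ∈ 𝒩, adjoint x ∈ 𝒩)
    {v : κ → (H →L[ℂ] H)} (hv : ∀ k, v k ∈ 𝒩) {X a : W →L[ℂ] W} (ha : X * a = X)
    (hc : ∀ y ∈ 𝒩, amp y * a = a * amp y) :
    (∑ k, amp (v k) * X * amp (adjoint (v k))) * a =
      ∑ k, amp (v k) * X * amp (adjoint (v k)) := by
  rw [Finset.sum_mul]
  refine Finset.sum_congr rfl fun k _ => ?_
  calc amp (v k) * X * amp (adjoint (v k)) * a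
      = amp (v k) * X * (amp (adjoint (v k)) * a) := by simp only [mul_assoc]
    _ = amp (v k) * (X * a) * amp (adjoint (v k)) := by
        rw [hc _ (hadj _ (hv k))]; simp only [mul_assoc]
    _ = _ := by rw [ha]

theorem sum_ctA {κ ι : Type} [Fintype κ] {𝒩 : Set (H →L[ℂ] H)}
    (hadj : ∀ x ∈ 𝒩, adjoint x ∈ 𝒩) {v : κ → (H →L[ℂ] H)} (hv : ∀ k, v k ∈ 𝒩) {X : W →L[ℂ] W}
    {l : Filter ι} {a b : ι → (W →L[ℂ] W)} (h : CtA l a b X)
    (ha : ∀ i, ∀ y ∈ 𝒩, amp y * a i = a i * amp y)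
    (hb : ∀ i, ∀ y ∈ 𝒩, amp y * b i = b i * amp y) :
    CtA l a b (∑ k, amp (v k) * X * amp (adjoint (v k))) :=
  CtA.sum _ fun k _ => h.sandwich (fun i => ha i _ (hv k)) (fun i => hb i _ (hadj _ (hv k)))

end leg

section model

variable {I J K Λ Γ : Type} [Group Λ] [Group Γ] [Fintype I] [Fintype J] [Fintype K]
  {α : Γ → (Ell2 (I × Λ) →L[ℂ] Ell2 (I × Λ))}
  {β : Γ → (Ell2 (J × Λ) →L[ℂ] Ell2 (J × Λ))} {γ : Γ → (Ell2 (K × Λ) →L[ℂ] Ell2 (K × Λ))}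

/-- **The lift in both legs**, with continuity. -/
theorem lift_ct (hβ : AF β) (hγ : AF γ) (fβ : FSum β) (fγ : FSum γ)
    {X : Ell2 (I × ((J × Λ) × (K × Λ))) →L[ℂ] Ell2 (I × ((J × Λ) × (K × Λ)))}
    (h1 : R1T I K (β 1) * X = X) (h1' : X * R1T I K (β 1) = X)
    (h2 : R2T I J (γ 1) * X = X) (h2' : X * R2T I J (γ 1) = X)
    (hX1 : ∀ g, X * R1T I K (β g) = R1T I K (β g) * X)
    (hX2 : ∀ g, X * R2T I J (γ g) = R2T I J (γ g) * X) :
    ∃ X' : Ell2 (I × ((J × Λ) × (K × Λ))) →L[ℂ] Ell2 (I × ((J × Λ) × (K × Λ))),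
      (∀ y ∈ MR J Λ, X' * tens 1 (tens y 1) = tens 1 (tens y 1) * X') ∧
      (∀ z ∈ MR K Λ, X' * tens 1 (tens 1 z) = tens 1 (tens 1 z) * X') ∧
      R1T I K (β 1) * (R2T I J (γ 1) * X') = X ∧
      (∀ a : Ell2 (I × ((J × Λ) × (K × Λ))) →L[ℂ] Ell2 (I × ((J × Λ) × (K × Λ))), a * X = X →
        (∀ y ∈ MR J Λ, tens 1 (tens y 1) * a = a * tens 1 (tens y 1)) →
        (∀ z ∈ MR K Λ, tens 1 (tens 1 z) * a = a * tens 1 (tens 1 z)) → a * X' = X') ∧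
      (∀ a : Ell2 (I × ((J × Λ) × (K × Λ))) →L[ℂ] Ell2 (I × ((J × Λ) × (K × Λ))), X * a = X →
        (∀ y ∈ MR J Λ, tens 1 (tens y 1) * a = a * tens 1 (tens y 1)) →
        (∀ z ∈ MR K Λ, tens 1 (tens 1 z) * a = a * tens 1 (tens 1 z)) → X' * a = X') ∧
      (∀ (ι : Type) (l : Filter ι)
        (a b : ι → (Ell2 (I × ((J × Λ) × (K × Λ))) →L[ℂ] Ell2 (I × ((J × Λ) × (K × Λ))))),
        (∀ i, ∀ y ∈ MR J Λ, tens 1 (tens y 1) * a i = a i * tens 1 (tens y 1)) →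
        (∀ i, ∀ z ∈ MR K Λ, tens 1 (tens 1 z) * a i = a i * tens 1 (tens 1 z)) →
        (∀ i, ∀ y ∈ MR J Λ, tens 1 (tens y 1) * b i = b i * tens 1 (tens y 1)) →
        (∀ i, ∀ z ∈ MR K Λ, tens 1 (tens 1 z) * b i = b i * tens 1 (tens 1 z)) →
        CtA l a b X → CtA l a b X') := by
  obtain ⟨κ, _, v, hv, hvs⟩ := fβ
  obtain ⟨κ', _, w, hw, hws⟩ := fγ
  obtain ⟨X₁, hX₁a, hX₁b, hX₁⟩ := lift_leg (leg1 (A := I) (B := J × Λ) (C := K × Λ))
    (𝒩 := MR J Λ) (fun x hx y hy => MR_mul hx hy) (fun x hx => MR_adj hx) hv hvs h1 h1'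
    (fun y hy => (leg1 (A := I) (B := J × Λ) (C := K × Λ)).bicomm (𝒜 := Set.range fun g => JT (β g))
      (fun T hT => corner_comm hβ (fun g => hT _ ⟨g, rfl⟩) hy) (by
        rintro _ ⟨g, rfl⟩
        exact hX1 g))
  have l2 : amp2 I (J × Λ) (K × Λ) (JT (γ 1)) * X₁ = X₁ := by
    rw [hX₁]
    exact sum_left hv h2 fun y hy => amp12 y (JT (γ 1))
  have r2 : X₁ * amp2 I (J × Λ) (K × Λ) (JT (γ 1)) = X₁ := by
    rw [hX₁]
    exact sum_right (fun x hx => MR_adj hx) hv h2' fun y hy => amp12 y (JT (γ 1))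
  have c2 : ∀ g, X₁ * amp2 I (J × Λ) (K × Λ) (JT (γ g)) =
      amp2 I (J × Λ) (K × Λ) (JT (γ g)) * X₁ := by
    intro g
    rw [hX₁]
    exact sum_comm (fun x hx => MR_adj hx) hv (hX2 g) fun y hy => amp12 y (JT (γ g))
  obtain ⟨X₂, hX₂a, hX₂b, hX₂⟩ := lift_leg (leg2 (A := I) (B := J × Λ) (C := K × Λ))
    (𝒩 := MR K Λ) (fun x hx y hy => MR_mul hx hy) (fun x hx => MR_adj hx) hw hws l2 r2
    (fun y hy => (leg2 (A := I) (B := J × Λ) (C := K × Λ)).bicomm (𝒜 := Set.range fun g => JT (γ g))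
      (fun T hT => corner_comm hγ (fun g => hT _ ⟨g, rfl⟩) hy) (by
        rintro _ ⟨g, rfl⟩
        exact c2 g))
  refine ⟨X₂, fun y hy => ?_, hX₂a, ?_, fun a ha hy hz => ?_, fun a ha hy hz => ?_,
    fun ι l a b ha1 ha2 hb1 hb2 hct => ?_⟩
  · have := sum_comm (amp := amp2 I (J × Λ) (K × Λ)) (fun x hx => MR_adj hx) hw (hX₁a y hy)
      fun z hz => (amp12 y z).symm
    rw [← hX₂] at this
    exact this
  · rw [← hX₁b, ← hX₂b]; rfl
  · have e1 : a * X₁ = X₁ := by rw [hX₁]; exact sum_left hv ha hy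
    rw [hX₂]
    exact sum_left hw e1 hz
  · have e1 : X₁ * a = X₁ := by rw [hX₁]; exact sum_right (fun x hx => MR_adj hx) hv ha hy
    rw [hX₂]
    exact sum_right (fun x hx => MR_adj hx) hw e1 hz
  · have e1 : CtA l a b X₁ := by
      rw [hX₁]
      exact sum_ctA (fun x hx => MR_adj hx) hv hct ha1 hb1
    rw [hX₂]
    exact sum_ctA (fun x hx => MR_adj hx) hw e1 ha2 hb2

variable {G : Type} [Group G] [TopologicalSpace G] {p : Γ →* G}

/-- The case of an operator commuting with `M_J(R(Λ))` and `M_K(R(Λ))`. -/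
theorem erg_lift_ct (j0 : J) (k0 : K) (hU : ErgC α p)
    {X : Ell2 (I × ((J × Λ) × (K × Λ))) →L[ℂ] Ell2 (I × ((J × Λ) × (K × Λ)))}
    (h1 : ∀ y ∈ MR J Λ, X * tens 1 (tens y 1) = tens 1 (tens y 1) * X)
    (h2 : ∀ z ∈ MR K Λ, X * tens 1 (tens 1 z) = tens 1 (tens 1 z) * X)
    (hP : VT J K (α 1) * X = X) (hP' : X * VT J K (α 1) = X)
    (hct : CtA (comap p (𝓝 1)) (fun w => VT J K (α w)) (fun w => VT J K (α w⁻¹)) X) :
    ∃ c : ℂ, X = c • VT J K (α 1) := by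
  have hc : ∀ p : J × K, X * (Fe I Λ p.1 p.2 ∘L adjoint (Fe I Λ j0 k0)) =
      (Fe I Λ p.1 p.2 ∘L adjoint (Fe I Λ j0 k0)) * X := by
    intro p
    rw [Fe_Fe, ← mul_assoc, h1 _ (tens_mem_MR _), mul_assoc, h2 _ (tens_mem_MR _), mul_assoc]
  have hall := strip_all (F := fun p : J × K => Fe I Λ p.1 p.2) (b0 := (j0, k0)) (X := X)
    (Fe_iso j0 k0) hc
  have hcm : ∀ {a : Ell2 (I × ((J × Λ) × (K × Λ))) →L[ℂ] Ell2 (I × ((J × Λ) × (K × Λ)))}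
      {a' : Ell2 (I × ((Unit × Λ) × (Unit × Λ))) →L[ℂ] Ell2 (I × ((Unit × Λ) × (Unit × Λ)))},
      a ∘L Fe I Λ j0 k0 = Fe I Λ j0 k0 ∘L a' →
      adjoint (Fe I Λ j0 k0) ∘L a = a' ∘L adjoint (Fe I Λ j0 k0) → X * a = a * X →
      (adjoint (Fe I Λ j0 k0) ∘L X ∘L Fe I Λ j0 k0) * a' =
        a' * (adjoint (Fe I Λ j0 k0) ∘L X ∘L Fe I Λ j0 k0) := fun e1 e2 h =>
    strip_comm (F := fun p : J × K => Fe I Λ p.1 p.2) (b0 := (j0, k0)) e1 e2 h
  have hl : VT Unit Unit (α 1) * (adjoint (Fe I Λ j0 k0) ∘L X ∘L Fe I Λ j0 k0) =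
      adjoint (Fe I Λ j0 k0) ∘L X ∘L Fe I Λ j0 k0 :=
    strip_left (F := fun p : J × K => Fe I Λ p.1 p.2) (b0 := (j0, k0)) (Fe_VT _ _ _) hP
  have hr := hcm (VT_Fe (α 1) j0 k0) (Fe_VT (α 1) j0 k0) (hP'.trans hP.symm)
  rw [hl] at hr
  obtain ⟨c, hc'⟩ := hU (adjoint (Fe I Λ j0 k0) ∘L X ∘L Fe I Λ j0 k0) hl hr (fun s t =>
      hcm (RR_Fe j0 k0 (rho s) (rho t)) (Fe_RR j0 k0 (rho s) (rho t)) (by
        rw [RR_eq, ← mul_assoc, h1 _ (rho_mem_MR s), mul_assoc, h2 _ (rho_mem_MR t), mul_assoc]))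
    (hct.strip (fun w => Fe_VT (α w) j0 k0) (fun w => VT_Fe (α w⁻¹) j0 k0))
  refine ⟨c, ext_Fe (F := ℂ) fun j k => ?_⟩
  have h3 := hall (j, k)
  change X ∘L Fe I Λ j k = Fe I Λ j k ∘L (adjoint (Fe I Λ j0 k0) ∘L X ∘L Fe I Λ j0 k0) at h3
  rw [h3, hc', comp_smul, smul_comp, VT_Fe]

/-- **Ergodicity of the amplified comultiplication at a connected place.** -/
theorem erg_t_ct (hΛ : ∀ s : Λ, s ≠ 1 → Set.Infinite {y : Λ | ∃ h, y = h * s * h⁻¹})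
    (hα : AF α) (hβ : AF β) (hγ : AF γ) (hU : ErgC α p)
    {X : Ell2 (I × ((J × Λ) × (K × Λ))) →L[ℂ] Ell2 (I × ((J × Λ) × (K × Λ)))}
    (hV : VT J K (α 1) * X = X) (hV' : X * VT J K (α 1) = X)
    (h1 : R1T I K (β 1) * X = X) (h1' : X * R1T I K (β 1) = X)
    (h2 : R2T I J (γ 1) * X = X) (h2' : X * R2T I J (γ 1) = X)
    (hX1 : ∀ g, X * R1T I K (β g) = R1T I K (β g) * X)
    (hX2 : ∀ g, X * R2T I J (γ g) = R2T I J (γ g) * X)
    (hct : CtA (comap p (𝓝 1)) (fun w => VT J K (α w)) (fun w => VT J K (α w⁻¹)) X) :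
    ∃ c : ℂ, X = c • (VT J K (α 1) * R1T I K (β 1) * R2T I J (γ 1)) := by
  obtain ⟨X', hX'1, hX'2, hX'3, hX'5, hX'6, hX'7⟩ := lift_ct hβ hγ (fsum_of_icc hΛ hβ)
    (fsum_of_icc hΛ hγ) h1 h1' h2 h2' hX1 hX2
  have hc1 : ∀ g, ∀ y ∈ MR J Λ, tens 1 (tens y 1) * VT J K (α g) =
      VT J K (α g) * tens 1 (tens y 1) := by
    intro g y hy
    have := comm_VR1 (I := I) (K := K) (hα.comm g) (eqv_of_MR hy)
    rw [R1T, JT_JT] at this
    exact this.symm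
  have hc2 : ∀ g, ∀ z ∈ MR K Λ, tens 1 (tens 1 z) * VT J K (α g) =
      VT J K (α g) * tens 1 (tens 1 z) := by
    intro g y hy
    have := comm_VR2 (I := I) (J := J) (hα.comm g) (eqv_of_MR hy)
    rw [R2T, JT_JT] at this
    exact this.symm
  obtain ⟨j0⟩ := AF.nonempty hβ
  obtain ⟨k0⟩ := AF.nonempty hγ
  obtain ⟨c, hX'c⟩ := erg_lift_ct j0 k0 hU hX'1 hX'2 (hX'5 _ hV (hc1 1) (hc2 1))
    (hX'6 _ hV' (hc1 1) (hc2 1)) (hX'7 Γ _ _ _ (fun g => hc1 g) (fun g => hc2 g)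
      (fun g => hc1 g⁻¹) (fun g => hc2 g⁻¹) hct)
  refine ⟨c, ?_⟩
  rw [← hX'3, hX'c]
  have e1 : R2T I J (γ 1) * VT J K (α 1) = VT J K (α 1) * R2T I J (γ 1) :=
    (comm_VR2 (hα.comm 1) (hγ.comm 1)).symm
  have e2 : R1T I K (β 1) * VT J K (α 1) = VT J K (α 1) * R1T I K (β 1) :=
    (comm_VR1 (hα.comm 1) (hβ.comm 1)).symm
  rw [mul_smul_comm, mul_smul_comm, e1, ← mul_assoc, e2]

/-- **Ergodicity on `HH P` at a connected place**, `P = VT (α 1) * R1T (β 1) * R2T (γ 1)`. -/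
theorem erg_HH_ct (hΛ : ∀ s : Λ, s ≠ 1 → Set.Infinite {y : Λ | ∃ h, y = h * s * h⁻¹})
    (hα : AF α) (hβ : AF β) (hγ : AF γ) (hU : ErgC α p)
    {P : Ell2 (I × ((J × Λ) × (K × Λ))) →L[ℂ] Ell2 (I × ((J × Λ) × (K × Λ)))}
    (hPd : P = VT J K (α 1) * R1T I K (β 1) * R2T I J (γ 1))
    {V R₁ R₂ : Γ → (HH P →L[ℂ] HH P)}
    (hV : ∀ g (w : HH P), (V g w : Ell2 (I × ((J × Λ) × (K × Λ)))) = VT J K (α g) w)
    (h₁ : ∀ g (w : HH P), (R₁ g w : Ell2 (I × ((J × Λ) × (K × Λ)))) = R1T I K (β g) w)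
    (h₂ : ∀ g (w : HH P), (R₂ g w : Ell2 (I × ((J × Λ) × (K × Λ)))) = R2T I J (γ g) w)
    {x : HH P →L[ℂ] HH P} (hx1 : ∀ g, x * R₁ g = R₁ g * x) (hx2 : ∀ g, x * R₂ g = R₂ g * x)
    (hct : ∀ ξ, ∀ ε > 0, ∃ W ∈ 𝓝 (1 : G), ∀ v, p v ∈ W → ‖(V v * x * V v⁻¹ - x) ξ‖ ≤ ε) :
    ∃ c : ℂ, x = c • (1 : HH P →L[ℂ] HH P) := by
  have c12 : ∀ g h, VT J K (α g) * R1T I K (β h) = R1T I K (β h) * VT J K (α g) := fun g h =>
    comm_VR1 (hα.comm g) (hβ.comm h)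
  have c13 : ∀ g h, VT J K (α g) * R2T I J (γ h) = R2T I J (γ h) * VT J K (α g) := fun g h =>
    comm_VR2 (hα.comm g) (hγ.comm h)
  have c23 : ∀ g h, R1T I K (β g) * R2T I J (γ h) = R2T I J (γ h) * R1T I K (β g) := fun g h =>
    comm_R1R2 (β g) (γ h)
  have m1 : ∀ g, VT J K (α 1) * VT J K (α g) = VT J K (α g) := fun g => by
    rw [← VT_mul, hα.p_mul]
  have m1' : ∀ g, VT J K (α g) * VT J K (α 1) = VT J K (α g) := fun g => by
    rw [← VT_mul, hα.mul_p]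
  have m2 : ∀ g, R1T I K (β 1) * R1T I K (β g) = R1T I K (β g) := fun g => by
    rw [← R1T_mul, hβ.p_mul]
  have m2' : ∀ g, R1T I K (β g) * R1T I K (β 1) = R1T I K (β g) := fun g => by
    rw [← R1T_mul, hβ.mul_p]
  have m3 : ∀ g, R2T I J (γ 1) * R2T I J (γ g) = R2T I J (γ g) := fun g => by
    rw [← R2T_mul, hγ.p_mul]
  have m3' : ∀ g, R2T I J (γ g) * R2T I J (γ 1) = R2T I J (γ g) := fun g => by
    rw [← R2T_mul, hγ.mul_p]
  -- commutations of `P`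
  have PV : ∀ g, P * VT J K (α g) = VT J K (α g) * P := by
    intro g
    calc P * VT J K (α g)
        = VT J K (α 1) * (R1T I K (β 1) * (R2T I J (γ 1) * VT J K (α g))) := by
          rw [hPd]; simp only [mul_assoc]
      _ = VT J K (α 1) * ((R1T I K (β 1) * VT J K (α g)) * R2T I J (γ 1)) := by
          rw [← c13, mul_assoc]
      _ = (VT J K (α 1) * VT J K (α g)) * (R1T I K (β 1) * R2T I J (γ 1)) := by
          rw [← c12]; simp only [mul_assoc]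
      _ = (VT J K (α g) * VT J K (α 1)) * (R1T I K (β 1) * R2T I J (γ 1)) := by rw [m1, m1']
      _ = _ := by rw [hPd]; simp only [mul_assoc]
  have PR1 : ∀ g, P * R1T I K (β g) = R1T I K (β g) * P := by
    intro g
    calc P * R1T I K (β g)
        = VT J K (α 1) * (R1T I K (β 1) * (R2T I J (γ 1) * R1T I K (β g))) := by
          rw [hPd]; simp only [mul_assoc]
      _ = VT J K (α 1) * ((R1T I K (β 1) * R1T I K (β g)) * R2T I J (γ 1)) := by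
          rw [← c23, mul_assoc]
      _ = (VT J K (α 1) * (R1T I K (β g) * R1T I K (β 1))) * R2T I J (γ 1) := by
          rw [m2, m2', mul_assoc]
      _ = (VT J K (α 1) * R1T I K (β g)) * (R1T I K (β 1) * R2T I J (γ 1)) := by
          simp only [mul_assoc]
      _ = _ := by rw [c12, hPd]; simp only [mul_assoc]
  have PR2 : ∀ g, P * R2T I J (γ g) = R2T I J (γ g) * P := by
    intro g
    calc P * R2T I J (γ g)
        = VT J K (α 1) * (R1T I K (β 1) * (R2T I J (γ 1) * R2T I J (γ g))) := by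
          rw [hPd]; simp only [mul_assoc]
      _ = VT J K (α 1) * ((R1T I K (β 1) * R2T I J (γ g)) * R2T I J (γ 1)) := by
          rw [m3, mul_assoc, m3']
      _ = (VT J K (α 1) * R2T I J (γ g)) * (R1T I K (β 1) * R2T I J (γ 1)) := by
          rw [c23]; simp only [mul_assoc]
      _ = _ := by rw [c13, hPd]; simp only [mul_assoc]
  have LV : VT J K (α 1) * P = P := by
    rw [hPd, ← mul_assoc, ← mul_assoc, m1]
  have L1 : R1T I K (β 1) * P = P := by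
    rw [hPd, ← mul_assoc, ← mul_assoc, ← c12, mul_assoc (VT J K (α 1)), m2]
  have L2 : R2T I J (γ 1) * P = P := by
    rw [← PR2, hPd, mul_assoc, m3]
  have hP : P * P = P := by
    nth_rewrite 1 [hPd]
    rw [mul_assoc, L2, mul_assoc, L1, LV]
  have hC : CtA (comap p (𝓝 1)) (fun w => VT J K (α w)) (fun w => VT J K (α w⁻¹)) (up hP x) :=
    (ctA_of_eps (a := V) (b := fun w => V w⁻¹) hct).strip (F := pr hP) (F' := (HH P).subtypeL)
      (fun w => by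
        ext1 u
        exact hV w u)
      (fun w => by
        ext1 u
        apply Subtype.ext
        change (V w⁻¹ (pr hP u) : Ell2 (I × ((J × Λ) × (K × Λ)))) = P (VT J K (α w⁻¹) u)
        rw [hV]
        exact (congrArg (fun T : Ell2 (I × ((J × Λ) × (K × Λ))) →L[ℂ]
          Ell2 (I × ((J × Λ) × (K × Λ))) => T u) (PV w⁻¹)).symm)
  obtain ⟨c, hc⟩ := erg_t_ct hΛ hα hβ hγ hU (X := up hP x) (left_up hP x LV)
    (up_right hP x ((PV 1).trans LV)) (left_up hP x L1) (up_right hP x ((PR1 1).trans L1))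
    (left_up hP x L2) (up_right hP x ((PR2 1).trans L2))
    (fun g => up_comm hP (h₁ g) (PR1 g) (hx1 g)) (fun g => up_comm hP (h₂ g) (PR2 g) (hx2 g)) hC
  rw [← hPd] at hc
  exact ⟨c, of_up hP hc⟩

end model

end Vale.Agent.P092.H866.T
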