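import Vale.Agent.P092.H866.T.Conn
import Vale.Agent.P092.H866.T.Fr

/-!
P092 (helper866), connected places for all amplifications: the main theorem for frames.
-/

set_option linter.all false

open scoped InnerProductSpace Topology ENNReal
open Filter ContinuousLinearMap

namespace Vale.Agent.P092.H866.T

open H160
open Vale.Agent.P092.H866 (CmC LK Lm Lm_apply Lm_add Lm_smul Lm_mul Lm_one evi hasSum_sq mem2_iff
  mem2_map norm_eq_of norm_le_of
  adjoint_mul sg sg_one sg_mul sg_mul' sg_add sg_sub sg_smul U_inv_mul U_mul_inv inner_Lm zl mem_zl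
  norm_Lm_iso tendsto_of_dense FD kills compact_of_sums)

variable {Γ Λ G : Type} [Group Γ] [Group Λ] [Group G] [TopologicalSpace G]
  {K : Type} [NormedAddCommGroup K]
  [InnerProductSpace ℂ K] [CompleteSpace K] {R : Λ →* (K →L[ℂ] K)} {U : Γ →* (K →L[ℂ] K)}
  {J : Type} {C : Subgroup Λ} {y : J → K} {p : Γ →* G}

section left

variable (h : Hyp U R C y)

theorem Lm_mem (A : QQ h p) (ξ : Hc h p) : Lm (A : K →L[ℂ] K) (ξ : LK J K) ∈ Hc h p := by
  have h1 : (ξ : LK J K) ∈ closure ((LinearMap.range (e₀ h p) : Submodule ℂ (LK J K)) : Set _) :=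
    ξ.2
  refine map_mem_closure (Lm (A : K →L[ℂ] K)).continuous h1 ?_
  rintro _ ⟨X, rfl⟩
  exact ⟨⟨A * X, h.ct_mul A.2 X.2⟩, X.2.toBd.vec_mul A.2.comm⟩

/-- left multiplication -/
noncomputable def L₀ (A : QQ h p) : Hc h p →L[ℂ] Hc h p :=
  ((Lm (A : K →L[ℂ] K)).comp (Hc h p).subtypeL).codRestrict (Hc h p) fun ξ => Lm_mem h A ξ

theorem L₀_coe (A : QQ h p) (ξ : Hc h p) :
    ((L₀ h A ξ : Hc h p) : LK J K) = Lm (A : K →L[ℂ] K) (ξ : LK J K) := rfl

/-- product in the algebra -/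
noncomputable def mulQ (A B : QQ h p) : QQ h p := ⟨A * B, h.ct_mul A.2 B.2⟩

noncomputable def adjQ (A : QQ h p) : QQ h p := ⟨adjoint (A : K →L[ℂ] K), h.ct_adj A.2⟩

theorem L₀_ee (A X : QQ h p) : L₀ h A (ee h p X) = ee h p (mulQ h A X) :=
  Subtype.ext (X.2.toBd.vec_mul A.2.comm).symm

noncomputable def LL : QQ h p →ₗ[ℂ] (Hc h p →L[ℂ] Hc h p) where
  toFun A := L₀ h A
  map_add' A B := by
    ext1 ξ
    exact Subtype.ext (Lm_add (A : K →L[ℂ] K) B (ξ : LK J K))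
  map_smul' c A := by
    ext1 ξ
    exact Subtype.ext (Lm_smul c (A : K →L[ℂ] K) (ξ : LK J K))

theorem LL_apply (A : QQ h p) (ξ : Hc h p) : LL h A ξ = L₀ h A ξ := rfl

theorem LL_mul (A B : QQ h p) : LL h A * LL h B = LL h (mulQ h A B) := by
  ext1 ξ
  exact Subtype.ext (Lm_mul (A : K →L[ℂ] K) B (ξ : LK J K)).symm

theorem LL_adj (A : QQ h p) : adjoint (LL h A) = LL h (adjQ h A) := by
  symm
  rw [eq_adjoint_iff]
  intro ξ η
  change ⟪Lm (adjoint (A : K →L[ℂ] K)) (ξ : LK J K), (η : LK J K)⟫_ℂ =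
    ⟪(ξ : LK J K), Lm (A : K →L[ℂ] K) (η : LK J K)⟫_ℂ
  rw [inner_Lm]

/-- evaluation at `i` -/
noncomputable def evc (i : J) : Hc h p →L[ℂ] K := (evi i).comp (Hc h p).subtypeL

theorem evc_apply (i : J) (ξ : Hc h p) : evc h i ξ = (ξ : LK J K) i := rfl

theorem evc_LL (i : J) (A : QQ h p) (ξ : Hc h p) :
    evc h i (LL h A ξ) = (A : K →L[ℂ] K) (evc h i ξ) := rfl

noncomputable def kk (i : J) : Hc h p →L[ℂ] Hc h p := (adjoint (evc h i)).comp (evc h i)

theorem kk_symm (i : J) : (kk h i : Hc h p →L[ℂ] Hc h p).IsSymmetric := by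
  intro ξ η
  change ⟪adjoint (evc h i) (evc h i ξ), η⟫_ℂ = ⟪ξ, adjoint (evc h i) (evc h i η)⟫_ℂ
  rw [adjoint_inner_left, adjoint_inner_right]

theorem kk_comm (i : J) (A : QQ h p) : LL h A * kk h i = kk h i * LL h A := by
  have h1 : evc h i ∘L LL h A = (A : K →L[ℂ] K) ∘L evc h i := by
    ext1 ξ; exact evc_LL h i A ξ
  have h2 : evc h i ∘L LL h (adjQ h A) = adjoint (A : K →L[ℂ] K) ∘L evc h i := by
    ext1 ξ; exact evc_LL h i (adjQ h A) ξ
  have h3 := congrArg (fun L => adjoint L) h2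
  simp only [adjoint_comp, adjoint_adjoint] at h3
  rw [← LL_adj, adjoint_adjoint] at h3
  -- `LL A ∘ ev* = ev* ∘ A`
  calc LL h A ∘L (adjoint (evc h i) ∘L evc h i)
      = (LL h A ∘L adjoint (evc h i)) ∘L evc h i := rfl
    _ = (adjoint (evc h i) ∘L (A : K →L[ℂ] K)) ∘L evc h i := by rw [h3]
    _ = adjoint (evc h i) ∘L ((A : K →L[ℂ] K) ∘L evc h i) := rfl
    _ = adjoint (evc h i) ∘L (evc h i ∘L LL h A) := by rw [h1]

theorem kk_zero (i : J) {ξ : Hc h p} (hξ : kk h i ξ = 0) : evc h i ξ = 0 := by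
  have h1 : ⟪evc h i ξ, evc h i ξ⟫_ℂ = 0 := by
    rw [← adjoint_inner_right]
    change ⟪ξ, kk h i ξ⟫_ℂ = 0
    rw [hξ, inner_zero_right]
  exact inner_self_eq_zero.mp h1

end left

section main

variable [IsTopologicalGroup G] (h : Hyp U R C y)

theorem WW_LL (w : Γ) (A : QQ h p) : WW h p w * LL h A * WW h p w⁻¹ = LL h (sgl h p w A) := by
  refine ext_ee h fun X => ?_
  change WW h p w (LL h A (WW h p w⁻¹ (ee h p X))) = LL h (sgl h p w A) (ee h p X)
  rw [WW_ee, LL_apply, LL_apply, L₀_ee, L₀_ee, WW_ee]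
  congr 1
  apply Subtype.ext
  change sg U w ((A : K →L[ℂ] K) * sg U w⁻¹ X) = sg U w A * X
  rw [sg_mul', ← sg_mul, mul_inv_cancel, sg_one]

theorem f1_Hc
    (hF1 : ∀ g : Γ, g ≠ 1 → ∀ N ∈ 𝓝 (1 : G), {y | ∃ w, p w ∈ N ∧ y = w * g * w⁻¹}.Infinite)
    {g : Γ} (hg : g ≠ 1) (ξ η : Hc h p) : ⟪(ξ : LK J K), Lm (U g) (η : LK J K)⟫_ℂ = 0 := by
  have h1 : ∀ X : QQ h p, ∀ η : Hc h p, ⟪(ee h p X : LK J K), Lm (U g) (η : LK J K)⟫_ℂ = 0 := by
    intro X η
    have h2 : ((innerSL ℂ (ee h p X : LK J K)).comp (Lm (U g))).comp (Hc h p).subtypeL = 0 := by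
      refine ext_ee h fun Y => ?_
      exact h.f1 hF1 Y.2 X.2 hg
    exact congrArg (fun T : Hc h p →L[ℂ] ℂ => T η) h2
  have h3 : (innerSL ℂ (Lm (U g) (η : LK J K))).comp (Hc h p).subtypeL = 0 := by
    refine ext_ee h fun Y => ?_
    change ⟪Lm (U g) (η : LK J K), (ee h p Y : LK J K)⟫_ℂ = 0
    rw [← inner_conj_symm, h1, map_zero]
  have h4 : ⟪Lm (U g) (η : LK J K), (ξ : LK J K)⟫_ℂ = 0 :=
    congrArg (fun T : Hc h p →L[ℂ] ℂ => T ξ) h3
  rw [← inner_conj_symm, h4, map_zero]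

variable {L : Type} [Fintype L] {ζ : L → K}

theorem evc_compact (hfr : Fr U ζ)
    (hF1 : ∀ g : Γ, g ≠ 1 → ∀ N ∈ 𝓝 (1 : G), {y | ∃ w, p w ∈ N ∧ y = w * g * w⁻¹}.Infinite)
    (i : J) : IsCompactOperator (evc h i : Hc h p →L[ℂ] K) := by
  classical
  refine compact_of_sums (evc h i) (∑ l, ‖ζ l‖ ^ 2) fun n ξ hξ => ?_
  have hU := h.hU
  -- the orthonormal family of all translates
  have horth : Orthonormal ℂ (fun z : Γ × Fin n => (Lm (U z.1) (ξ z.2 : LK J K) : LK J K)) := by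
    rw [orthonormal_iff_ite]
    rintro ⟨g, j⟩ ⟨g', j'⟩
    change ⟪Lm (U g) (ξ j : LK J K), Lm (U g') (ξ j' : LK J K)⟫_ℂ = _
    have e1 : ⟪Lm (U g) (ξ j : LK J K), Lm (U g') (ξ j' : LK J K)⟫_ℂ =
        ⟪(ξ j : LK J K), Lm (U (g⁻¹ * g')) (ξ j' : LK J K)⟫_ℂ := by
      rw [map_mul, Lm_mul, inner_Lm (U g⁻¹), hU, inv_inv]
    rw [e1]
    by_cases hg : g = g'
    · subst hg
      rw [inv_mul_cancel, map_one, Lm_one]
      have h2 := orthonormal_iff_ite.mp hξ j j'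
      have h3 : ⟪(ξ j : LK J K), (ξ j' : LK J K)⟫_ℂ = if j = j' then 1 else 0 := h2
      rw [h3]
      simp
    · rw [f1_Hc h hF1 (fun h' => hg (inv_mul_eq_one.mp h'))]
      simp [hg]
  have hb : ∀ (l : L) (s : Finset Γ), ∑ g ∈ s, ∑ j, ‖⟪U g⁻¹ (ζ l), evc h i (ξ j)⟫_ℂ‖ ^ 2 ≤
      ‖ζ l‖ ^ 2 := by
    intro l s
    have h1 := horth.sum_inner_products_le (lp.single 2 i (ζ l) : LK J K) (s := s ×ˢ Finset.univ)
    have h2 : ‖(lp.single 2 i (ζ l) : LK J K)‖ = ‖ζ l‖ := lp.norm_single (by norm_num) _ _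
    rw [h2, Finset.sum_product] at h1
    refine le_trans (le_of_eq ?_) h1
    refine Finset.sum_congr rfl fun g _ => Finset.sum_congr rfl fun j _ => ?_
    congr 1
    have e1 : ⟪(Lm (U g) (ξ j : LK J K) : LK J K), (lp.single 2 i (ζ l) : LK J K)⟫_ℂ =
        ⟪U g (evc h i (ξ j)), ζ l⟫_ℂ := by
      rw [lp.inner_single_right]
      rfl
    have e2 : ⟪U g⁻¹ (ζ l), evc h i (ξ j)⟫_ℂ = ⟪ζ l, U g (evc h i (ξ j))⟫_ℂ := by
      rw [inner_left hU, inv_inv]
    change ‖⟪U g⁻¹ (ζ l), evc h i (ξ j)⟫_ℂ‖ =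
      ‖⟪(Lm (U g) (ξ j : LK J K) : LK J K), (lp.single 2 i (ζ l) : LK J K)⟫_ℂ‖
    rw [e1, e2]
    exact norm_inner_symm _ _
  have hs : HasSum (fun z : L × Γ => ∑ j, ‖⟪U z.2⁻¹ (ζ z.1), evc h i (ξ j)⟫_ℂ‖ ^ 2)
      (∑ j, ‖evc h i (ξ j)‖ ^ 2) := by
    refine hasSum_sum fun j _ => ?_
    exact (Equiv.prodCongr (Equiv.refl L) (Equiv.inv Γ)).hasSum_iff.mpr
      (hfr.par (evc h i (ξ j)))
  refine hasSum_le_of_sum_le hs fun s => ?_
  calc ∑ z ∈ s, ∑ j, ‖⟪U z.2⁻¹ (ζ z.1), evc h i (ξ j)⟫_ℂ‖ ^ 2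
      ≤ ∑ z ∈ (Finset.univ : Finset L) ×ˢ (s.image Prod.snd),
          ∑ j, ‖⟪U z.2⁻¹ (ζ z.1), evc h i (ξ j)⟫_ℂ‖ ^ 2 := by
        refine Finset.sum_le_sum_of_subset_of_nonneg (fun z hz => ?_)
          fun _ _ _ => Finset.sum_nonneg fun _ _ => by positivity
        rw [Finset.mem_product]
        exact ⟨Finset.mem_univ _, Finset.mem_image_of_mem _ hz⟩
    _ ≤ ∑ l, ‖ζ l‖ ^ 2 := by
        rw [Finset.sum_product]
        exact Finset.sum_le_sum fun l _ => hb l _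

theorem kk_compact (hfr : Fr U ζ)
    (hF1 : ∀ g : Γ, g ≠ 1 → ∀ N ∈ 𝓝 (1 : G), {y | ∃ w, p w ∈ N ∧ y = w * g * w⁻¹}.Infinite)
    (i : J) : IsCompactOperator (kk h i : Hc h p →L[ℂ] Hc h p) :=
  (evc_compact h hfr hF1 i).clm_comp (adjoint (evc h i))

/-- continuous operators of finite `2`-norm commute with `U` -/
theorem sg_eq [PreconnectedSpace G] (hfr : Fr U ζ) (hp : DenseRange p) (hfd : FD p)
    (hF1 : ∀ g : Γ, g ≠ 1 → ∀ N ∈ 𝓝 (1 : G), {y | ∃ w, p w ∈ N ∧ y = w * g * w⁻¹}.Infinite)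
    (A : QQ h p) (w : Γ) : sg U w (A : K →L[ℂ] K) = A := by
  have key : ∀ i, (WW h p w * LL h A * WW h p w⁻¹ - LL h A) * kk h i = 0 := fun i =>
    kills hp hfd (WW h p) (WW_adj h) (WW_cont h) (LinearMap.range (LL h))
      (by rintro _ ⟨A, rfl⟩ _ ⟨B, rfl⟩; exact ⟨mulQ h A B, (LL_mul h A B).symm⟩)
      (by rintro _ ⟨A, rfl⟩; exact ⟨adjQ h A, (LL_adj h A).symm⟩)
      (by rintro w _ ⟨A, rfl⟩; exact ⟨sgl h p w A, (WW_LL h w A).symm⟩)
      (kk h i) (kk_compact h hfr hF1 i) (kk_symm h i)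
      (by rintro _ ⟨A, rfl⟩; exact kk_comm h i A) (LL h A) ⟨A, rfl⟩ w
  set B : QQ h p := sgl h p w A - A with hB
  have hLB : WW h p w * LL h A * WW h p w⁻¹ - LL h A = LL h B := by
    rw [WW_LL, hB, map_sub]
  -- `B` kills everything
  have h1 : ∀ i (ξ : Hc h p), (B : K →L[ℂ] K) (evc h i ξ) = 0 := by
    intro i ξ
    rw [← evc_LL]
    refine kk_zero h i ?_
    have h2 := key i
    rw [hLB, kk_comm] at h2
    exact congrArg (fun T : Hc h p →L[ℂ] Hc h p => T ξ) h2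
  have h2 : ∀ i, adjoint (B : K →L[ℂ] K) (y i) = 0 := by
    intro i
    have h3 := h1 i (ee h p (adjQ h B))
    have h4 : evc h i (ee h p (adjQ h B)) = adjoint (B : K →L[ℂ] K) (y i) :=
      vec_apply (adjQ h B).2.toBd.mem i
    rw [h4] at h3
    have h5 : ⟪adjoint (B : K →L[ℂ] K) (y i), adjoint (B : K →L[ℂ] K) (y i)⟫_ℂ = 0 := by
      rw [adjoint_inner_left, h3, inner_zero_right]
    exact inner_self_eq_zero.mp h5
  have h6 : adjoint (B : K →L[ℂ] K) = 0 := h.tot _ (adjQ h B).2.comm h2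
  have h7 : (B : K →L[ℂ] K) = 0 := by
    rw [← adjoint_adjoint (B : K →L[ℂ] K), h6, map_zero]
  exact sub_eq_zero.mp h7

end main

section fin

variable [IsTopologicalGroup G] {κ L ι : Type} [Fintype κ] [Fintype L] {ω : κ → K} {ζ : L → K}
  {x : ι → Λ}

/-- **Ergodicity at connected places**, for frames. -/
theorem conn_zero [PreconnectedSpace G] [Infinite ι] (hU : Fr U ζ) (hR : Fr R ω)
    (hc : ∀ g s, U g * R s = R s * U g)
    (hx : Function.Bijective fun z : ι × C => (z.2 : Λ) * x z.1) (hp : DenseRange p) (hfd : FD p)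
    (hF1 : ∀ g : Γ, g ≠ 1 → ∀ N ∈ 𝓝 (1 : G), {y | ∃ w, p w ∈ N ∧ y = w * g * w⁻¹}.Infinite)
    {X : K →L[ℂ] K} (hX : Ct R U C (yy R ω x) p X) : X = 0 := by
  have h := hyp_of_frames hU hR hc hx
  have hcomm : ∀ w, X * U w = U w * X := by
    intro w
    have h1 := sg_eq h hU hp hfd hF1 ⟨X, hX⟩ w
    have h2 : U w * X * U w⁻¹ = X := h1
    calc X * U w = U w * X * U w⁻¹ * U w := by rw [h2]
      _ = U w * X := by rw [mul_assoc, U_inv_mul, mul_one]
  -- the norms on the frame of `U` are constant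
  have hn : ∀ s, ∑ l, ‖X (R s (ζ l))‖ ^ 2 = ∑ l, ‖X (ζ l)‖ ^ 2 := by
    intro s
    have h1 := hU.tr_comm (X := X * R s) (fun w => by
      rw [mul_assoc, ← hc, ← mul_assoc, hcomm, mul_assoc])
    have h2 := hU.tr_comm (X := X) hcomm
    change _ = ∑ l, ‖X (R s (ζ l))‖ ^ 2 at h1
    rw [← h1, ← h2]
    refine Finset.sum_congr rfl fun l _ => ?_
    rw [adjoint_mul, hR.adj, mul_ap, norm_map hR.adj]
  -- they tend to zero
  have hlim : ∀ v : K, Tendsto (fun i => X (R (x i) v)) cofinite (𝓝 0) := by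
    have hsum := mem2_iff.mp hX.toBd.mem
    have hk : ∀ k, Tendsto (fun i => ‖X (R (x i) (ω k))‖ ^ 2) cofinite (𝓝 0) := by
      intro k
      have h3 := hsum.tendsto_cofinite_zero
      have hinj : Function.Injective fun i : ι => (i, k) := fun x y hxy => (Prod.mk.inj hxy).1
      have h4 := h3.comp hinj.tendsto_cofinite
      exact h4.congr fun i => rfl
    -- the permutation of the cosets
    have hs : ∀ s k, Tendsto (fun i => X (R (x i) (R s (ω k)))) cofinite (𝓝 0) := by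
      intro s k
      choose z hz using hx.2
      have hz' : ∀ a : Λ, ((z a).2 : Λ) * x (z a).1 = a := hz
      have hinj : Function.Injective fun i : ι => (z (x i * s)).1 := by
        intro i j hij
        have h1 := hz' (x i * s)
        have h2 := hz' (x j * s)
        have hij' : (z (x i * s)).1 = (z (x j * s)).1 := hij
        rw [hij'] at h1
        have h3 : x i = ((z (x i * s)).2 : Λ) * ((z (x j * s)).2 : Λ)⁻¹ * x j := by
          have h4 : x (z (x j * s)).1 = ((z (x j * s)).2 : Λ)⁻¹ * (x j * s) := by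
            rw [eq_inv_mul_iff_mul_eq]; exact h2
          rw [h4] at h1
          have h5 : ((z (x i * s)).2 : Λ) * ((z (x j * s)).2 : Λ)⁻¹ * x j * s = x i * s := by
            refine Eq.trans ?_ h1
            simp only [mul_assoc]
          exact (mul_right_cancel h5).symm
        have h6 := hx.1 (a₁ := (i, 1)) (a₂ := (j, ⟨((z (x i * s)).2 : Λ) *
          ((z (x j * s)).2 : Λ)⁻¹, C.mul_mem (z (x i * s)).2.2 (C.inv_mem (z (x j * s)).2.2)⟩)) (by
            change ((1 : C) : Λ) * x i = _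
            rw [C.coe_one, one_mul]
            exact h3)
        exact congrArg Prod.fst h6
      have h1 := (hk k).comp hinj.tendsto_cofinite
      have h2 : ∀ i, ‖X (R (x i) (R s (ω k)))‖ ^ 2 = ‖X (R (x (z (x i * s)).1) (ω k))‖ ^ 2 := by
        intro i
        have h3 : R (x i) (R s (ω k)) = R ((z (x i * s)).2 : Λ) (R (x (z (x i * s)).1) (ω k)) := by
          rw [← mul_ap, ← mul_ap, ← map_mul, ← map_mul, hz']
        rw [h3, hX.comm.apply (z (x i * s)).2.2, norm_map hR.adj]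
      have h3 : Tendsto (fun i => ‖X (R (x i) (R s (ω k)))‖ ^ 2) cofinite (𝓝 0) :=
        h1.congr fun i => (h2 i).symm
      rw [tendsto_zero_iff_norm_tendsto_zero]
      have h4 := (Real.continuous_sqrt.tendsto 0).comp h3
      rw [Real.sqrt_zero] at h4
      refine h4.congr fun g => ?_
      simp only [Function.comp_apply]
      exact Real.sqrt_sq (norm_nonneg _)
    intro v
    have hspan : ∀ u ∈ Submodule.span ℂ (Set.range fun z : κ × Λ => R z.2 (ω z.1)),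
        Tendsto (fun i => X (R (x i) u)) cofinite (𝓝 0) := by
      intro u hu
      induction hu using Submodule.span_induction with
      | mem y hy =>
        obtain ⟨⟨k, s⟩, rfl⟩ := hy
        exact hs s k
      | zero =>
        simp only [map_zero]
        exact tendsto_const_nhds
      | add u v _ _ hu hv =>
        simp only [map_add]
        simpa using hu.add hv
      | smul c u _ hu =>
        simp only [map_smul]
        simpa using hu.const_smul c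
    rw [Metric.tendsto_nhds]
    intro ε hε
    obtain ⟨u, hu, hvu⟩ := Metric.mem_closure_iff.mp (hR.dense v) (ε / (2 * (‖X‖ + 1)))
      (by positivity)
    filter_upwards [Metric.tendsto_nhds.mp (hspan u hu) (ε / 2) (by positivity)] with i hi
    rw [dist_zero_right] at hi ⊢
    have e1 : X (R (x i) v) = X (R (x i) (v - u)) + X (R (x i) u) := by
      rw [← map_add, ← map_add, sub_add_cancel]
    have e2 : ‖X (R (x i) (v - u))‖ ≤ ε / 2 := by
      calc ‖X (R (x i) (v - u))‖ ≤ ‖X‖ * ‖R (x i) (v - u)‖ := X.le_opNorm _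
        _ ≤ (‖X‖ + 1) * (ε / (2 * (‖X‖ + 1))) := by
            rw [norm_map hR.adj]
            rw [dist_eq_norm] at hvu
            gcongr
            linarith
        _ = ε / 2 := by field_simp
    rw [e1]
    calc _ ≤ ‖X (R (x i) (v - u))‖ + ‖X (R (x i) u)‖ := norm_add_le _ _
      _ < ε := by linarith
  have h0 : ∑ l, ‖X (ζ l)‖ ^ 2 = 0 := by
    have h1 : Tendsto (fun i => ∑ l, ‖X (R (x i) (ζ l))‖ ^ 2) cofinite (𝓝 (∑ _l : L, (0 : ℝ))) := by
      refine tendsto_finsetSum _ fun l _ => ?_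
      have h2 := ((hlim (ζ l)).norm).pow 2
      rw [norm_zero, zero_pow two_ne_zero] at h2
      exact h2
    rw [Finset.sum_const_zero] at h1
    have h2 : Tendsto (fun _ : ι => ∑ l, ‖X (ζ l)‖ ^ 2) cofinite (𝓝 0) :=
      h1.congr fun i => hn (x i)
    exact tendsto_nhds_unique tendsto_const_nhds h2
  refine hU.zero_op fun l w => ?_
  have h1 : ‖X (ζ l)‖ ^ 2 = 0 :=
    (Finset.sum_eq_zero_iff_of_nonneg fun _ _ => by positivity).mp h0 l (Finset.mem_univ _)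
  have h2 : X (ζ l) = 0 := norm_eq_zero.mp (pow_eq_zero_iff two_ne_zero |>.mp h1)
  rw [← mul_ap, hcomm, mul_ap, h2, map_zero]

end fin

end Vale.Agent.P092.H866.T
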