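import Vale.Agent.P092.H866.T.Vec
import Vale.Agent.P092.H866.Mix

/-!
P092 (helper866), connected places for all amplifications: (F1).
-/

set_option linter.all false

open scoped InnerProductSpace Topology ENNReal
open Filter ContinuousLinearMap

namespace Vale.Agent.P092.H866.T

open H160
open Vale.Agent.P092.H866 (CmC LK Lm Lm_apply evi hasSum_sq mem2_iff mem2_map norm_eq_of norm_le_of
  adjoint_mul sg sg_one sg_mul sg_mul' sg_add sg_sub sg_smul U_inv_mul U_mul_inv inner_Lm zl mem_zl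
  norm_Lm_iso tendsto_of_dense)

variable {Γ Λ G : Type} [Group Γ] [Group Λ] [Group G] [TopologicalSpace G]
  {K : Type} [NormedAddCommGroup K]
  [InnerProductSpace ℂ K] [CompleteSpace K] {R : Λ →* (K →L[ℂ] K)} {U : Γ →* (K →L[ℂ] K)}
  {J : Type} {C : Subgroup Λ} {y : J → K} {p : Γ →* G}

/-- the same for a multiple of the representation -/
theorem Hyp.c0_lp (h : Hyp U R C y) (a b : LK J K) :
    Tendsto (fun g => ⟪a, Lm (U g) b⟫_ℂ) cofinite (𝓝 0) := by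
  classical
  have hnorm : ∀ g, ‖(Lm (U g) b : LK J K)‖ ≤ ‖b‖ := fun g =>
    (norm_Lm_iso (norm_map h.hU g) b).le
  have hsingle : ∀ (i : J) (v : K),
      (lp.single 2 i v : LK J K) ∈ zl cofinite (fun g => (Lm (U g) b : LK J K)) := by
    intro i v
    rw [mem_zl]
    have h1 : ∀ g, ⟪(lp.single 2 i v : LK J K), Lm (U g) b⟫_ℂ = ⟪v, U g (b i)⟫_ℂ := by
      intro g
      rw [lp.inner_single_left]
      rfl
    simp only [h1]
    exact h.c0 _ _
  have h1 := lp.hasSum_single (by norm_num : (2 : ℝ≥0∞) ≠ ⊤) a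
  have h2 : a ∈ closure ((zl cofinite (fun g => (Lm (U g) b : LK J K)) :
      Submodule ℂ (LK J K)) : Set (LK J K)) :=
    mem_closure_of_tendsto h1 (Filter.Eventually.of_forall fun s =>
      Submodule.sum_mem _ fun i _ => hsingle i _)
  exact tendsto_of_dense hnorm _ (fun ξ hξ => mem_zl.mp hξ) h2

/-- `X` is of finite `2`-norm and continuous for the conjugation action. -/
structure Ct (R : Λ →* (K →L[ℂ] K)) (U : Γ →* (K →L[ℂ] K)) (C : Subgroup Λ) (y : J → K)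
    (p : Γ →* G) (X : K →L[ℂ] K) : Prop extends Bd R C y X where
  cont : Tendsto (fun w => ‖vec y (sg U w X - X)‖) (comap p (𝓝 1)) (𝓝 0)

section

variable (h : Hyp U R C y)

include h

theorem Hyp.ct_tendsto_inv {X : K →L[ℂ] K} (hX : Ct R U C y p X) :
    Tendsto (fun w => vec y (sg U w⁻¹ X)) (comap p (𝓝 1)) (𝓝 (vec y X)) := by
  rw [tendsto_iff_norm_sub_tendsto_zero]
  refine hX.cont.congr fun w => ?_
  have hB := hX.toBd
  rw [← (h.bd_sg hB w⁻¹).vec_sub hB]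
  have h1 := h.norm_vec_sg ((h.bd_sg hB w⁻¹).sub hB) w
  rw [← h1, sg_sub, ← sg_mul, mul_inv_cancel, sg_one, (h.bd_sg hB w).vec_sub hB,
    hB.vec_sub (h.bd_sg hB w), norm_sub_rev]

/-- **(F1)** -/
theorem Hyp.f1
    (hF1 : ∀ h : Γ, h ≠ 1 → ∀ N ∈ 𝓝 (1 : G), {g | ∃ w, p w ∈ N ∧ g = w * h * w⁻¹}.Infinite)
    {S T : K →L[ℂ] K} (hS : Ct R U C y p S) (hT : Ct R U C y p T) {k : Γ} (hk : k ≠ 1) :
    ⟪vec y T, Lm (U k) (vec y S)⟫_ℂ = 0 := by
  by_contra hne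
  set z := ⟪vec y T, Lm (U k) (vec y S)⟫_ℂ with hz
  have hpos : 0 < ‖z‖ := norm_pos_iff.mpr hne
  -- the coefficient at `w k w⁻¹`
  have h1 : ∀ w, ⟪vec y T, Lm (U (w * k * w⁻¹)) (vec y S)⟫_ℂ =
      ⟪vec y (sg U w⁻¹ T), Lm (U k) (vec y (sg U w⁻¹ S))⟫_ℂ := by
    intro w
    have hS' := h.bd_sg hS.toBd w⁻¹
    have hT' := h.bd_sg hT.toBd w⁻¹
    rw [← hS.toBd.vec_mul (h.cm_U _), ← hS'.vec_mul (h.cm_U _),
      ← h.inner_sg hT' (hS'.mul_left (h.cm_U k)) w, sg_mul', ← sg_mul, ← sg_mul,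
      mul_inv_cancel, sg_one, sg_one]
    congr 3
    rw [sg, map_mul, map_mul]
  have h2 : Tendsto (fun w => ⟪vec y T, Lm (U (w * k * w⁻¹)) (vec y S)⟫_ℂ)
      (comap p (𝓝 1)) (𝓝 z) := by
    simp only [h1]
    exact (h.ct_tendsto_inv hT).inner
      (((Lm (U k)).continuous.tendsto _).comp (h.ct_tendsto_inv hS))
  have h3 : ∀ᶠ w in comap p (𝓝 1),
      ‖z‖ / 2 < ‖⟪vec y T, Lm (U (w * k * w⁻¹)) (vec y S)⟫_ℂ‖ :=
    h2.norm.eventually (lt_mem_nhds (half_lt_self hpos))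
  obtain ⟨N, hN, hNS⟩ := Filter.mem_comap.mp h3
  have h4 := (h.c0_lp (vec y T) (vec y S)).norm
  rw [norm_zero] at h4
  have h5 := h4.eventually (gt_mem_nhds (half_pos hpos))
  rw [Filter.eventually_cofinite] at h5
  refine hF1 k hk N hN (h5.subset ?_)
  rintro g ⟨w, hw, rfl⟩
  exact not_lt.mpr (hNS hw : ‖z‖ / 2 < _).le

end

end Vale.Agent.P092.H866.T
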