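import Vale.Agent.P092.H866.T.Main
import Vale.Agent.P092.H866.Erg
import Vale.Agent.P092.H776.ErgTC

/-!
P092 (helper866), connected places for all amplifications: ergodicity of the comultiplication,
core (data `H776.TC.JDM`).
-/

set_option linter.all false

open scoped InnerProductSpace Topology ENNReal
open Filter ContinuousLinearMap

namespace Vale.Agent.P092.H866.T

open H160
open H776.TC (JDM)
open Vale.Agent.P092.H866 (CmC sg sg_sub reps_bij infinite_quot FD)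

section slice

variable {Γ Λ G E HH : Type} [Group Γ] [Group Λ] [Group G] [TopologicalSpace G]
  [NormedAddCommGroup E] [InnerProductSpace ℂ E] [CompleteSpace E] [NormedAddCommGroup HH]
  [InnerProductSpace ℂ HH] [CompleteSpace HH]
  {r : Λ →* (E →L[ℂ] E)} {R : Λ × Λ →* (HH →L[ℂ] HH)} {J : Λ → (E →L[ℂ] HH)}
  {U : Γ →* (E →L[ℂ] E)} {A' : Γ → (HH →L[ℂ] HH)} {p : Γ →* G} {κ ι : Type} {ω : κ → E}
  {x : ι → Λ} {C : Subgroup Λ}

/-- the slice of `X` at `s` -/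
noncomputable def Sl (J : Λ → (E →L[ℂ] HH)) (s : Λ) (X : HH →L[ℂ] HH) : E →L[ℂ] E :=
  adjoint (J s) ∘L X ∘L J 1

theorem Sl_apply (s : Λ) (X : HH →L[ℂ] HH) (v : E) : Sl J s X v = adjoint (J s) (X (J 1 v)) := rfl

theorem Sl_sub (s : Λ) (X Y : HH →L[ℂ] HH) : Sl J s (X - Y) = Sl J s X - Sl J s Y := by
  ext1 v
  rw [Sl_apply, sub_apply, sub_apply, map_sub, Sl_apply, Sl_apply]

variable (h : JDM r R J (fun g => U g) A')

include h

theorem Sl_r {X : HH →L[ℂ] HH} (hX : ∀ q, X * R q = R q * X) (s c : Λ) (v : E) :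
    Sl J s X (r c v) = r c (Sl J (c⁻¹ * s * c) X v) := by
  rw [Sl_apply, Sl_apply]
  have h1 : J 1 (r c v) = R (c, c) (J 1 v) := by
    have h1 := congrArg (fun L : E →L[ℂ] HH => L v) (h.jr 1 c)
    have h2 : c⁻¹ * 1 * c = 1 := by group
    rw [h2] at h1
    exact h1
  have h2 : X (R (c, c) (J 1 v)) = R (c, c) (X (J 1 v)) :=
    congrArg (fun L : HH →L[ℂ] HH => L (J 1 v)) (hX (c, c))
  have h3 := congrArg (fun L : HH →L[ℂ] E => L (X (J 1 v))) (h.jr' s c⁻¹)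
  have e1 : ((c⁻¹, c⁻¹) : Λ × Λ)⁻¹ = (c, c) := by rw [Prod.inv_mk, inv_inv]
  rw [e1, inv_inv] at h3
  rw [h1, h2]
  exact h3

theorem sg_Sl (w : Γ) (s : Λ) (X : HH →L[ℂ] HH) :
    sg U w (Sl J s X) = Sl J s (A' w * X * A' w⁻¹) := by
  ext1 v
  change U w (adjoint (J s) (X (J 1 (U w⁻¹ v)))) = adjoint (J s) (A' w (X (A' w⁻¹ (J 1 v))))
  have e1 : J 1 (U w⁻¹ v) = A' w⁻¹ (J 1 v) :=
    (congrArg (fun L : E →L[ℂ] HH => L v) (h.ja 1 w⁻¹)).symm
  have e2 : ∀ y, U w (adjoint (J s) y) = adjoint (J s) (A' w y) := fun y =>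
    congrArg (fun L : HH →L[ℂ] E => L y) (h.ja' s w)
  rw [e1, e2]

theorem bessel_le (η : HH) (F : Finset Λ) : ∑ s ∈ F, ‖adjoint (J s) η‖ ^ 2 ≤ ‖η‖ ^ 2 := by
  classical
  have hpr : ∀ s ∈ F, ∀ t ∈ F, ⟪J s (adjoint (J s) η), J t (adjoint (J t) η)⟫_ℂ =
      if s = t then ((‖adjoint (J s) η‖ ^ 2 : ℝ) : ℂ) else 0 := by
    intro s _ t _
    rw [← adjoint_inner_right]
    change ⟪adjoint (J s) η, (adjoint (J s) ∘L J t) (adjoint (J t) η)⟫_ℂ = _
    split_ifs with hst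
    · subst hst
      rw [h.jj]
      change ⟪adjoint (J s) η, adjoint (J s) η⟫_ℂ = _
      rw [inner_self_eq_norm_sq_to_K]; norm_cast
    · rw [h.orth s t hst]
      change ⟪adjoint (J s) η, (0 : E)⟫_ℂ = _
      rw [inner_zero_right]
  set w : HH := ∑ s ∈ F, J s (adjoint (J s) η) with hw
  set a : ℝ := ∑ s ∈ F, ‖adjoint (J s) η‖ ^ 2 with ha
  have h1 : ⟪w, w⟫_ℂ = (a : ℂ) := by
    rw [hw, sum_inner, ha]
    push_cast
    refine Finset.sum_congr rfl fun s hs => ?_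
    rw [inner_sum, Finset.sum_congr rfl fun t ht => hpr s hs t ht, Finset.sum_ite_eq]
    rw [if_pos hs]
    push_cast
    rfl
  have h2 : ⟪η, w⟫_ℂ = (a : ℂ) := by
    rw [hw, inner_sum, ha]
    push_cast
    refine Finset.sum_congr rfl fun s hs => ?_
    rw [← adjoint_inner_left, inner_self_eq_norm_sq_to_K]
    norm_cast
  have h3 : ‖w‖ ^ 2 = a := by
    rw [inner_self_eq_norm_sq_to_K] at h1
    have h5 : ((‖w‖ ^ 2 : ℝ) : ℂ) = (a : ℂ) := by
      rw [← h1]; push_cast; rfl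
    exact Complex.ofReal_injective h5
  have h4 : a ≤ ‖η‖ * ‖w‖ := by
    have h5 := norm_inner_le_norm (𝕜 := ℂ) η w
    rw [h2, Complex.norm_real] at h5
    exact (le_abs_self a).trans h5
  nlinarith [norm_nonneg η, norm_nonneg w, sq_nonneg (‖η‖ - ‖w‖)]

theorem bessel_enn (η : HH) : ∑' s, ENNReal.ofReal (‖adjoint (J s) η‖ ^ 2) ≤
    ENNReal.ofReal (‖η‖ ^ 2) := by
  rw [ENNReal.tsum_eq_iSup_sum]
  refine iSup_le fun F => ?_
  rw [← ENNReal.ofReal_sum_of_nonneg fun s _ => by positivity]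
  exact ENNReal.ofReal_le_ofReal (bessel_le h η F)

/-- the `2`-norm of a slice -/
theorem N2_Sl [Fintype κ] {X : HH →L[ℂ] HH} (hX : ∀ q, X * R q = R q * X) (s : Λ)
    (hinj : Function.Injective fun i : ι => (x i)⁻¹ * s * x i) :
    N2 (yy r ω x) (Sl J s X) ≤ ENNReal.ofReal (∑ k, ‖X (J 1 (ω k))‖ ^ 2) := by
  rw [N2, ENNReal.tsum_prod', ENNReal.tsum_comm, tsum_fintype,
    ENNReal.ofReal_sum_of_nonneg fun _ _ => by positivity]
  refine Finset.sum_le_sum fun k _ => ?_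
  have h1 : ∀ i, ENNReal.ofReal (‖Sl J s X (yy r ω x (i, k))‖ ^ 2) =
      ENNReal.ofReal (‖adjoint (J ((x i)⁻¹ * s * x i)) (X (J 1 (ω k)))‖ ^ 2) := by
    intro i
    change ENNReal.ofReal (‖Sl J s X (r (x i) (ω k))‖ ^ 2) = _
    rw [Sl_r h hX, h.irr.norm_r]
    rfl
  rw [tsum_congr h1]
  refine le_trans ?_ (bessel_enn h (X (J 1 (ω k))))
  exact ENNReal.tsum_comp_le_tsum_of_injective hinj
    (fun s => ENNReal.ofReal (‖adjoint (J s) (X (J 1 (ω k)))‖ ^ 2))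

theorem mem_Sl [Fintype κ] {X : HH →L[ℂ] HH} (hX : ∀ q, X * R q = R q * X) (s : Λ)
    (hinj : Function.Injective fun i : ι => (x i)⁻¹ * s * x i) :
    Memℓp (fun j => Sl J s X (yy r ω x j)) 2 :=
  mem_iff.mpr (ne_top_of_le_ne_top ENNReal.ofReal_ne_top (N2_Sl h hX s hinj))

theorem norm_Sl [Fintype κ] {X : HH →L[ℂ] HH} (hX : ∀ q, X * R q = R q * X) (s : Λ)
    (hinj : Function.Injective fun i : ι => (x i)⁻¹ * s * x i) :
    ‖vec (yy r ω x) (Sl J s X)‖ ^ 2 ≤ ∑ k, ‖X (J 1 (ω k))‖ ^ 2 := by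
  have h1 := norm_vec (mem_Sl (κ := κ) (ω := ω) h hX s hinj)
  have h2 := N2_Sl (κ := κ) (ω := ω) h hX s hinj
  rw [← h1, ENNReal.ofReal_le_ofReal_iff (Finset.sum_nonneg fun _ _ => by positivity)] at h2
  exact h2

omit h in
theorem err_R {X : HH →L[ℂ] HH} (hX : ∀ q, X * R q = R q * X)
    (hAR : ∀ w q, A' w * R q = R q * A' w) (w : Γ) (q : Λ × Λ) :
    (A' w * X * A' w⁻¹ - X) * R q = R q * (A' w * X * A' w⁻¹ - X) := by
  rw [sub_mul, mul_sub, mul_assoc, hAR, mul_assoc, ← mul_assoc X, hX q, mul_assoc,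
    ← mul_assoc (A' w), hAR, mul_assoc, mul_assoc]

/-- the slices are continuous -/
theorem ct_Sl [Fintype κ] {X : HH →L[ℂ] HH} (hX : ∀ q, X * R q = R q * X)
    (hAR : ∀ w q, A' w * R q = R q * A' w)
    (hcont : ∀ k, ∀ ε > 0, ∃ W ∈ 𝓝 (1 : G), ∀ w, p w ∈ W →
      ‖(A' w * X * A' w⁻¹ - X) (J 1 (ω k))‖ ≤ ε) (s : Λ) (hC : ∀ c ∈ C, c * s = s * c)
    (hinj : Function.Injective fun i : ι => (x i)⁻¹ * s * x i) :
    Ct r U C (yy r ω x) p (Sl J s X) where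
  comm := by
    intro c hc
    ext1 v
    change Sl J s X (r c v) = r c (Sl J s X v)
    rw [Sl_r h hX]
    have h1 : c⁻¹ * s * c = s := by rw [mul_assoc, ← hC c hc, inv_mul_cancel_left]
    rw [h1]
  mem := mem_Sl h hX s hinj
  cont := by
    have h1 : Tendsto (fun w => ∑ k, ‖(A' w * X * A' w⁻¹ - X) (J 1 (ω k))‖ ^ 2)
        (comap p (𝓝 1)) (𝓝 0) := by
      have h2 : Tendsto (fun w => ∑ k, ‖(A' w * X * A' w⁻¹ - X) (J 1 (ω k))‖ ^ 2)
          (comap p (𝓝 1)) (𝓝 (∑ _k : κ, (0 : ℝ))) := by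
        refine tendsto_finsetSum _ fun k _ => ?_
        have h3 : Tendsto (fun w => ‖(A' w * X * A' w⁻¹ - X) (J 1 (ω k))‖)
            (comap p (𝓝 1)) (𝓝 0) := by
          rw [Metric.tendsto_nhds]
          intro ε hε
          obtain ⟨W, hW, hWε⟩ := hcont k (ε / 2) (half_pos hε)
          refine Filter.mem_comap.mpr ⟨W, hW, fun w hw => ?_⟩
          rw [Set.mem_setOf_eq, dist_zero_right, norm_norm]
          exact lt_of_le_of_lt (hWε w hw) (half_lt_self hε)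
        have h4 := h3.pow 2
        rwa [zero_pow two_ne_zero] at h4
      rwa [Finset.sum_const_zero] at h2
    have h2 : Tendsto (fun w => ‖vec (yy r ω x) (sg U w (Sl J s X) - Sl J s X)‖ ^ 2)
        (comap p (𝓝 1)) (𝓝 0) := by
      refine squeeze_zero (fun w => by positivity) (fun w => ?_) h1
      rw [sg_Sl h, ← Sl_sub]
      exact norm_Sl h (err_R hX hAR w) s hinj
    have h3 := (Real.continuous_sqrt.tendsto 0).comp h2
    rw [Real.sqrt_zero] at h3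
    refine h3.congr fun w => ?_
    simp only [Function.comp_apply]
    exact Real.sqrt_sq (norm_nonneg _)

/-- **Ergodicity at connected places**, core with a corner. -/
theorem erg_jdm [IsTopologicalGroup G] [PreconnectedSpace G] {L : Type} [Fintype κ] [Fintype L]
    {ζ : L → E} (hU : Fr U ζ) (hr : Fr r ω) (hAR : ∀ w q, A' w * R q = R q * A' w)
    (hicc : ∀ s : Λ, s ≠ 1 → {y : Λ | ∃ k, y = k * s * k⁻¹}.Infinite) (hp : DenseRange p)
    (hfd : FD p)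
    (hF1 : ∀ g : Γ, g ≠ 1 → ∀ N ∈ 𝓝 (1 : G), {y | ∃ w, p w ∈ N ∧ y = w * g * w⁻¹}.Infinite)
    {X : HH →L[ℂ] HH} (P' : HH →L[ℂ] HH) (hPX : P' * X = X)
    (tot : ∀ η, P' η = η → (∀ s, adjoint (J s) η = 0) → η = 0)
    (hPJ : ∀ s, P' ∘L J s = J s)
    (hXR : ∀ q, X * R q = R q * X)
    (hcont : ∀ k, ∀ ε > 0, ∃ W ∈ 𝓝 (1 : G), ∀ w, p w ∈ W →
      ‖(A' w * X * A' w⁻¹ - X) (J 1 (ω k))‖ ≤ ε) :
    ∃ c : ℂ, ∀ s ζ, X (J s ζ) = c • J s ζ := by
  have hR : ∀ p v, X (R p v) = R p (X v) := fun p v =>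
    congrArg (fun L : HH →L[ℂ] HH => L v) (hXR p)
  have hcU : ∀ g s, U g * r s = r s * U g := fun g s => h.irr.com (U g) ⟨g, rfl⟩ s
  have hz : ∀ s : Λ, s ≠ 1 → adjoint (J s) ∘L X ∘L J 1 = 0 := by
    intro s hs
    haveI := infinite_quot hicc hs
    have hinj : Function.Injective fun i : Λ ⧸ Subgroup.centralizer ({s} : Set Λ) =>
        ((i.out)⁻¹)⁻¹ * s * (i.out)⁻¹ := by
      intro i j hij
      have h4 : ((i.out)⁻¹)⁻¹ * s * (i.out)⁻¹ = ((j.out)⁻¹)⁻¹ * s * (j.out)⁻¹ := hij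
      rw [inv_inv, inv_inv] at h4
      rw [← QuotientGroup.out_eq' i, ← QuotientGroup.out_eq' j, QuotientGroup.eq,
        Subgroup.mem_centralizer_iff]
      rintro x rfl
      calc x * (i.out⁻¹ * j.out) = i.out⁻¹ * (i.out * x * i.out⁻¹) * j.out := by group
        _ = i.out⁻¹ * (j.out * x * j.out⁻¹) * j.out := by rw [h4]
        _ = _ := by group
    exact conn_zero (C := Subgroup.centralizer ({s} : Set Λ))
      (x := fun i : Λ ⧸ Subgroup.centralizer ({s} : Set Λ) => (i.out)⁻¹) hU hr hcU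
      (reps_bij (Subgroup.centralizer ({s} : Set Λ))) hp hfd hF1
      (ct_Sl h hXR hAR hcont s
        (fun c hc => ((Subgroup.mem_centralizer_iff.mp hc) s rfl).symm) hinj)
  -- the slice at `1`
  have hx : Function.Bijective fun z : Unit × (⊤ : Subgroup Λ) =>
      (z.2 : Λ) * (fun _ : Unit => (1 : Λ)) z.1 := by
    constructor
    · rintro ⟨_, c⟩ ⟨_, d⟩ h
      have h1 : (c : Λ) * 1 = d * 1 := h
      rw [mul_one, mul_one] at h1
      rw [Subtype.ext h1]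
    · intro y
      exact ⟨⟨(), ⟨y, trivial⟩⟩, mul_one y⟩
  have hct : Ct r U (⊤ : Subgroup Λ) (yy r ω fun _ : Unit => (1 : Λ)) p (Sl J 1 X) :=
    ct_Sl h hXR hAR hcont 1 (fun c _ => by rw [mul_one, one_mul])
      (fun _ _ _ => rfl)
  have hcomm : ∀ w, Sl J 1 X * U w = U w * Sl J 1 X := by
    intro w
    have h1 := sg_eq (hyp_of_frames hU hr hcU hx) hU hp hfd hF1 ⟨Sl J 1 X, hct⟩ w
    have h2 : U w * Sl J 1 X * U w⁻¹ = Sl J 1 X := h1
    calc Sl J 1 X * U w = U w * Sl J 1 X * U w⁻¹ * U w := by rw [h2]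
      _ = U w * Sl J 1 X := by rw [mul_assoc, U_inv_mul, mul_one]
  obtain ⟨c, hc⟩ := h.irr.irr (Sl J 1 X) (fun s => hct.comm s trivial) (by
    rintro _ ⟨g, rfl⟩
    exact hcomm g)
  have hmain : ∀ ζ, X (J 1 ζ) = c • J 1 ζ := by
    intro ζ
    refine sub_eq_zero.mp (tot _ ?_ fun s => ?_)
    · have e1 : P' (X (J 1 ζ)) = X (J 1 ζ) :=
        congrArg (fun L : HH →L[ℂ] HH => L (J 1 ζ)) hPX
      have e2 : P' (J 1 ζ) = J 1 ζ := congrArg (fun L : E →L[ℂ] HH => L ζ) (hPJ 1)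
      rw [map_sub, map_smul, e1, e2]
    · rw [map_sub, map_smul]
      by_cases hs : s = 1
      · subst hs
        have e1 : adjoint (J 1) (X (J 1 ζ)) = c • ζ :=
          congrArg (fun L : E →L[ℂ] E => L ζ) hc
        have e2 : adjoint (J 1) (J 1 ζ) = ζ := congrArg (fun L : E →L[ℂ] E => L ζ) (h.jj 1)
        rw [e1, e2, sub_self]
      · have e1 : adjoint (J s) (X (J 1 ζ)) = 0 :=
          congrArg (fun L : E →L[ℂ] E => L ζ) (hz s hs)
        have e2 : adjoint (J s) (J 1 ζ) = 0 :=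
          congrArg (fun L : E →L[ℂ] E => L ζ) (h.orth s 1 hs)
        rw [e1, e2, smul_zero, sub_self]
  refine ⟨c, fun s ζ => ?_⟩
  have e1 : J s ζ = R (1, s)⁻¹ (J 1 ζ) := congrArg (fun L : E →L[ℂ] HH => L ζ) (h.js s)
  rw [e1, hR, hmain, map_smul]

end slice

end Vale.Agent.P092.H866.T
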