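import Vale.Agent.P092.H866.Vec

/-!
P092 (helper866), connected places for all amplifications: operators of finite `2`-norm in the
commutant of `R(C)`, for a family of vectors `y` with the trace property, and the conjugation
action of `U`.  (Version of `H866/Vec.lean` for frames.)
-/

set_option linter.all false

open scoped InnerProductSpace Topology ENNReal
open Filter ContinuousLinearMap

namespace Vale.Agent.P092.H866.T

open H160
open Vale.Agent.P092.H866 (CmC LK Lm Lm_apply evi hasSum_sq mem2_iff mem2_map norm_eq_of norm_le_of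
  adjoint_mul sg sg_one sg_mul sg_mul' sg_add sg_sub sg_smul U_inv_mul U_mul_inv inner_Lm)

variable {Γ Λ : Type} [Group Γ] [Group Λ] {K : Type} [NormedAddCommGroup K]
  [InnerProductSpace ℂ K] [CompleteSpace K] {R : Λ →* (K →L[ℂ] K)} {U : Γ →* (K →L[ℂ] K)}
  {J : Type} {C : Subgroup Λ} {y : J → K}

/-- the (extended) square of the `2`-norm -/
noncomputable def N2 (y : J → K) (X : K →L[ℂ] K) : ℝ≥0∞ := ∑' j, ENNReal.ofReal (‖X (y j)‖ ^ 2)

theorem cm_adj (hR : ∀ s, adjoint (R s) = R s⁻¹) {X : K →L[ℂ] K} (hX : CmC R C X) :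
    CmC R C (adjoint X) := fun c hc => by
  have h1 := congrArg adjoint (hX c⁻¹ (C.inv_mem hc))
  rw [← star_eq_adjoint, ← star_eq_adjoint, star_mul, star_mul, star_eq_adjoint (R c⁻¹),
    hR, inv_inv, star_eq_adjoint] at h1
  exact h1.symm

theorem inner_left (hU : ∀ g, adjoint (U g) = U g⁻¹) (g : Γ) (u v : K) :
    ⟪U g u, v⟫_ℂ = ⟪u, U g⁻¹ v⟫_ℂ := by
  rw [← hU, adjoint_inner_right]

theorem inner_right (hU : ∀ g, adjoint (U g) = U g⁻¹) (g : Γ) (u v : K) :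
    ⟪u, U g v⟫_ℂ = ⟪U g⁻¹ u, v⟫_ℂ := by
  rw [← hU, adjoint_inner_left]

theorem norm_map (hU : ∀ g, adjoint (U g) = U g⁻¹) (g : Γ) (v : K) : ‖U g v‖ = ‖v‖ := by
  have h1 : ⟪U g v, U g v⟫_ℂ = ⟪v, v⟫_ℂ := by
    rw [inner_left hU, ← mul_ap, U_inv_mul]
    rfl
  rw [inner_self_eq_norm_sq_to_K, inner_self_eq_norm_sq_to_K] at h1
  have h2 : ‖U g v‖ ^ 2 = ‖v‖ ^ 2 := by exact_mod_cast h1
  exact (pow_left_inj₀ (norm_nonneg _) (norm_nonneg _) two_ne_zero).mp h2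

/-- `X` commutes with `R(C)` and has finite `2`-norm. -/
structure Bd (R : Λ →* (K →L[ℂ] K)) (C : Subgroup Λ) (y : J → K) (X : K →L[ℂ] K) : Prop where
  comm : CmC R C X
  mem : Memℓp (fun j => X (y j)) 2

open Classical in
/-- the vector of `X` -/
noncomputable def vec (y : J → K) (X : K →L[ℂ] K) : LK J K :=
  if h : Memℓp (fun j => X (y j)) 2 then ⟨fun j => X (y j), h⟩ else 0

theorem vec_apply {X : K →L[ℂ] K} (h : Memℓp (fun j => X (y j)) 2) (j : J) :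
    (vec y X : LK J K) j = X (y j) := by
  rw [vec, dif_pos h]

theorem mem_iff {X : K →L[ℂ] K} : Memℓp (fun j => X (y j)) 2 ↔ N2 y X ≠ ∞ := by
  rw [mem2_iff, N2]
  constructor
  · intro h
    exact h.tsum_ofReal_ne_top
  · intro h
    have h1 := ENNReal.summable_toReal h
    refine h1.congr fun i => ?_
    rw [ENNReal.toReal_ofReal (by positivity)]

theorem norm_vec {X : K →L[ℂ] K} (h : Memℓp (fun j => X (y j)) 2) :
    ENNReal.ofReal (‖vec y X‖ ^ 2) = N2 y X := by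
  have h1 := hasSum_sq (vec y X)
  rw [← h1.tsum_eq, ENNReal.ofReal_tsum_of_nonneg (fun y => by positivity) h1.summable, N2]
  refine tsum_congr fun i => ?_
  rw [vec_apply h]

theorem norm_vec_sq {X : K →L[ℂ] K} (h : Memℓp (fun j => X (y j)) 2) :
    ‖vec y X‖ ^ 2 = ∑' j, ‖X (y j)‖ ^ 2 := by
  have h1 := hasSum_sq (vec y X)
  rw [← h1.tsum_eq]
  refine tsum_congr fun i => ?_
  rw [vec_apply h]

theorem norm_vec_le {X Y : K →L[ℂ] K} (hX : Memℓp (fun j => X (y j)) 2)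
    (hY : Memℓp (fun j => Y (y j)) 2) {c : ℝ} (hc : 0 ≤ c)
    (h : N2 y X ≤ ENNReal.ofReal (c ^ 2) * N2 y Y) :
    ‖vec y X‖ ≤ c * ‖vec y Y‖ := by
  rw [← norm_vec hX, ← norm_vec hY, ← ENNReal.ofReal_mul (by positivity),
    ENNReal.ofReal_le_ofReal_iff (by positivity), ← mul_pow] at h
  exact (pow_le_pow_iff_left₀ (norm_nonneg _) (by positivity) two_ne_zero).mp h

theorem norm_vec_eq {X Y : K →L[ℂ] K} (hX : Memℓp (fun j => X (y j)) 2)
    (hY : Memℓp (fun j => Y (y j)) 2) (h : N2 y X = N2 y Y) :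
    ‖vec y X‖ = ‖vec y Y‖ := by
  refine le_antisymm ?_ ?_
  · have := norm_vec_le hX hY zero_le_one (by rw [h]; simp)
    rwa [one_mul] at this
  · have := norm_vec_le hY hX zero_le_one (by rw [h]; simp)
    rwa [one_mul] at this

theorem N2_mul_le (A X : K →L[ℂ] K) :
    N2 y (A * X) ≤ ENNReal.ofReal (‖A‖ ^ 2) * N2 y X := by
  rw [N2, N2, ← ENNReal.tsum_mul_left]
  refine ENNReal.tsum_le_tsum fun i => ?_
  rw [← ENNReal.ofReal_mul (by positivity), ← mul_pow]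
  exact ENNReal.ofReal_le_ofReal (pow_le_pow_left₀ (norm_nonneg _) (A.le_opNorm _) 2)

theorem N2_mul_iso {A : K →L[ℂ] K} (hA : ∀ v, ‖A v‖ = ‖v‖) (X : K →L[ℂ] K) :
    N2 y (A * X) = N2 y X := by
  refine tsum_congr fun i => ?_
  rw [mul_ap, hA]

/-- The standing hypotheses. -/
structure Hyp (U : Γ →* (K →L[ℂ] K)) (R : Λ →* (K →L[ℂ] K)) (C : Subgroup Λ) (y : J → K) :
    Prop where
  hU : ∀ g, adjoint (U g) = U g⁻¹
  hR : ∀ s, adjoint (R s) = R s⁻¹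
  hc : ∀ g s, U g * R s = R s * U g
  tr : ∀ X, CmC R C X → N2 y (adjoint X) = N2 y X
  tot : ∀ X, CmC R C X → (∀ j, X (y j) = 0) → X = 0
  c0 : ∀ a b, Tendsto (fun g => ⟪a, U g b⟫_ℂ) cofinite (𝓝 0)

section bd

variable (h : Hyp U R C y)

include h

theorem Hyp.N2_mul_right_le {A X : K →L[ℂ] K} (hA : CmC R C A) (hX : CmC R C X) :
    N2 y (X * A) ≤ ENNReal.ofReal (‖A‖ ^ 2) * N2 y X := by
  rw [← h.tr _ (hX.mul hA), adjoint_mul, ← h.tr _ hX]
  refine (N2_mul_le _ _).trans ?_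
  rw [LinearIsometryEquiv.norm_map]

theorem Hyp.adj {X : K →L[ℂ] K} (hX : Bd R C y X) : Bd R C y (adjoint X) :=
  ⟨cm_adj h.hR hX.comm, by rw [mem_iff, h.tr _ hX.comm]; exact mem_iff.mp hX.mem⟩

theorem Hyp.norm_adj {X : K →L[ℂ] K} (hX : Bd R C y X) :
    ‖vec y (adjoint X)‖ = ‖vec y X‖ :=
  norm_vec_eq (h.adj hX).mem hX.mem (h.tr _ hX.comm)

omit h in
theorem Bd.mul_left {A X : K →L[ℂ] K} (hA : CmC R C A) (hX : Bd R C y X) :
    Bd R C y (A * X) :=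
  ⟨hA.mul hX.comm, mem2_map A hX.mem⟩

theorem Hyp.mul_right {A X : K →L[ℂ] K} (hA : CmC R C A) (hX : Bd R C y X) :
    Bd R C y (X * A) :=
  ⟨hX.comm.mul hA, by
    rw [mem_iff]
    refine ne_top_of_le_ne_top ?_ (h.N2_mul_right_le hA hX.comm)
    exact ENNReal.mul_ne_top ENNReal.ofReal_ne_top (mem_iff.mp hX.mem)⟩

omit h in
theorem Bd.norm_mul_left {A X : K →L[ℂ] K} (hA : CmC R C A) (hX : Bd R C y X) :
    ‖vec y (A * X)‖ ≤ ‖A‖ * ‖vec y X‖ :=
  norm_vec_le (hX.mul_left hA).mem hX.mem (norm_nonneg _) (N2_mul_le _ _)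

theorem Hyp.norm_mul_right {A X : K →L[ℂ] K} (hA : CmC R C A) (hX : Bd R C y X) :
    ‖vec y (X * A)‖ ≤ ‖A‖ * ‖vec y X‖ :=
  norm_vec_le (h.mul_right hA hX).mem hX.mem (norm_nonneg _) (h.N2_mul_right_le hA hX.comm)

end bd

theorem Bd.add {X Y : K →L[ℂ] K} (hX : Bd R C y X) (hY : Bd R C y Y) :
    Bd R C y (X + Y) :=
  ⟨hX.comm.add hY.comm, hX.mem.add hY.mem⟩

theorem Bd.smul {X : K →L[ℂ] K} (c : ℂ) (hX : Bd R C y X) : Bd R C y (c • X) :=
  ⟨hX.comm.smul c, hX.mem.const_smul c⟩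

theorem Bd.sub {X Y : K →L[ℂ] K} (hX : Bd R C y X) (hY : Bd R C y Y) :
    Bd R C y (X - Y) :=
  ⟨hX.comm.sub hY.comm, hX.mem.sub hY.mem⟩

theorem Bd.vec_add {X Y : K →L[ℂ] K} (hX : Bd R C y X) (hY : Bd R C y Y) :
    vec y (X + Y) = vec y X + vec y Y := by
  apply lp.ext; funext i
  rw [vec_apply (hX.add hY).mem, lp.coeFn_add, Pi.add_apply, vec_apply hX.mem, vec_apply hY.mem]
  rfl

theorem Bd.vec_smul {X : K →L[ℂ] K} (c : ℂ) (hX : Bd R C y X) :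
    vec y (c • X) = c • vec y X := by
  apply lp.ext; funext i
  rw [vec_apply (hX.smul c).mem, lp.coeFn_smul, Pi.smul_apply, vec_apply hX.mem]
  rfl

theorem Bd.vec_sub {X Y : K →L[ℂ] K} (hX : Bd R C y X) (hY : Bd R C y Y) :
    vec y (X - Y) = vec y X - vec y Y := by
  apply lp.ext; funext i
  rw [vec_apply (hX.sub hY).mem, lp.coeFn_sub, Pi.sub_apply, vec_apply hX.mem, vec_apply hY.mem]
  rfl

theorem Bd.vec_mul {A X : K →L[ℂ] K} (hA : CmC R C A) (hX : Bd R C y X) :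
    vec y (A * X) = Lm A (vec y X) := by
  apply lp.ext; funext i
  rw [vec_apply (hX.mul_left hA).mem, Lm_apply, vec_apply hX.mem]
  rfl

theorem sg_adjoint (hU : ∀ g, adjoint (U g) = U g⁻¹) (w : Γ) (X : K →L[ℂ] K) :
    adjoint (sg U w X) = sg U w (adjoint X) := by
  rw [sg, sg, adjoint_mul, adjoint_mul, hU, hU, inv_inv, mul_assoc]

theorem norm_sg (hU : ∀ g, adjoint (U g) = U g⁻¹) (w : Γ) (X : K →L[ℂ] K) : ‖sg U w X‖ ≤ ‖X‖ := by
  refine ContinuousLinearMap.opNorm_le_bound _ (norm_nonneg _) fun v => ?_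
  change ‖U w (X (U w⁻¹ v))‖ ≤ _
  rw [norm_map hU]
  refine (X.le_opNorm _).trans ?_
  rw [norm_map hU]

section sg

variable (h : Hyp U R C y)

include h

theorem Hyp.cm_U (w : Γ) : CmC R C (U w) := fun c _ => h.hc w c

theorem Hyp.bd_sg {X : K →L[ℂ] K} (hX : Bd R C y X) (w : Γ) : Bd R C y (sg U w X) :=
  h.mul_right (h.cm_U w⁻¹) (hX.mul_left (h.cm_U w))

theorem Hyp.norm_vec_sg {X : K →L[ℂ] K} (hX : Bd R C y X) (w : Γ) :
    ‖vec y (sg U w X)‖ = ‖vec y X‖ := by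
  refine norm_vec_eq (h.bd_sg hX w).mem hX.mem ?_
  have hX1 : CmC R C (X * U w⁻¹) := hX.comm.mul (h.cm_U w⁻¹)
  rw [sg, mul_assoc, N2_mul_iso (norm_map h.hU w), ← h.tr _ hX1, adjoint_mul, h.hU,
    inv_inv, N2_mul_iso (norm_map h.hU w), h.tr _ hX.comm]

theorem Hyp.inner_sg {X Y : K →L[ℂ] K} (hX : Bd R C y X) (hY : Bd R C y Y) (w : Γ) :
    ⟪vec y (sg U w X), vec y (sg U w Y)⟫_ℂ = ⟪vec y X, vec y Y⟫_ℂ := by
  have key : ∀ c : ℂ, ‖vec y (sg U w X) + c • vec y (sg U w Y)‖ =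
      ‖vec y X + c • vec y Y‖ := by
    intro c
    rw [← hY.vec_smul c, ← hX.vec_add (hY.smul c), ← (h.bd_sg hY w).vec_smul c,
      ← (h.bd_sg hX w).vec_add ((h.bd_sg hY w).smul c), ← sg_smul, ← sg_add]
    exact h.norm_vec_sg (hX.add (hY.smul c)) w
  rw [inner_eq_sum_norm_sq_div_four, inner_eq_sum_norm_sq_div_four]
  have k1 := key 1
  have k2 := key (-1)
  have k3 := key Complex.I
  have k4 := key (-Complex.I)
  rw [one_smul, one_smul] at k1
  rw [neg_one_smul, neg_one_smul, ← sub_eq_add_neg, ← sub_eq_add_neg] at k2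
  rw [neg_smul, neg_smul, ← sub_eq_add_neg, ← sub_eq_add_neg] at k4
  have e1 : (RCLike.I : ℂ) = Complex.I := rfl
  rw [e1, k1, k2, k3, k4]

end sg

end Vale.Agent.P092.H866.T
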